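import Vale.Agent.P272.GEO.Osgood
import Vale.Agent.P281.MF.Hol

/-!
# P275, block KI: separate and weak holomorphy
-/

set_option linter.unusedSectionVars false

open scoped Topology
open Filter Set Complex Metric

noncomputable section

namespace Vale.Agent.P275KI

variable {E X F : Type} [NormedAddCommGroup E] [NormedSpace ℂ E] [FiniteDimensional ℂ E]
  [NormedAddCommGroup X] [NormedSpace ℂ X] [CompleteSpace X] [NormedAddCommGroup F]
  [NormedSpace ℂ F] [CompleteSpace F]

/-- the lemma of Osgood along a basis -/
theorem osg {κ : Type} [Finite κ] (b : Module.Basis κ ℂ E) {O : Set E} (hO : IsOpen O)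
    {f : E → X} (hc : ContinuousOn f O)
    (hd : ∀ x ∈ O, ∀ k, DifferentiableAt ℂ (fun s : ℂ => f (x + s • b k)) 0) :
    DifferentiableOn ℂ f O := by
  have := Fintype.ofFinite κ
  let b' := b.reindex (Fintype.equivFin κ)
  let e : E ≃L[ℂ] (Fin (Fintype.card κ) → ℂ) := b'.equivFunL
  have h := P272.GEO.osgood (V := e.symm ⁻¹' O) (g := fun y => f (e.symm y))
    (hO.preimage e.symm.continuous) (hc.comp e.symm.continuous.continuousOn fun _ a => a)
    fun y hy i => by
      have e1 : (fun τ : ℂ => f (e.symm (Function.update y i τ))) =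
          (fun s : ℂ => f (e.symm y + s • b' i)) ∘ fun τ => τ - y i := by
        funext τ
        refine congrArg f (e.injective ?_)
        funext j
        simp only [e.apply_symm_apply, map_add, map_smul, Pi.add_apply, Pi.smul_apply]
        by_cases h : j = i
        · subst h; simp [e]
        · simp [e, h]
      rw [e1]
      refine DifferentiableAt.comp _ ?_ (differentiableAt_id.sub_const _)
      simpa [b'] using hd _ hy ((Fintype.equivFin κ).symm i)
  exact (h.comp e.differentiable.differentiableOn fun x a => by simpa using a).congr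
    fun x _ => by simp

theorem df_line {f : E → X} {x : E} (h : DifferentiableAt ℂ f x) (v : E) :
    DifferentiableAt ℂ (fun s : ℂ => f (x + s • v)) 0 :=
  DifferentiableAt.comp (0 : ℂ) (g := f) (by simpa using h) (by fun_prop)

/-- a continuous function which is holomorphic in the parameter and in the coordinate -/
theorem osg_prod {D : Set (E × ℂ)} (hD : IsOpen D) {f : E × ℂ → X} (hc : ContinuousOn f D)
    (h1 : ∀ p ∈ D, DifferentiableAt ℂ (fun t => f (t, p.2)) p.1)
    (h2 : ∀ p ∈ D, DifferentiableAt ℂ (fun w => f (p.1, w)) p.2) : DifferentiableOn ℂ f D := by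
  refine osg ((Module.finBasis ℂ E).prod (Module.Basis.singleton Unit ℂ)) hD hc fun p hp k => ?_
  rcases k with k | k
  · refine (df_line (h1 p hp) (Module.finBasis ℂ E k)).congr_of_eventuallyEq
      (Eventually.of_forall fun s => congrArg f (Prod.ext ?_ ?_)) <;> simp
  · refine (df_line (h2 p hp) 1).congr_of_eventuallyEq
      (Eventually.of_forall fun s => congrArg f (Prod.ext ?_ ?_)) <;> simp

theorem weak_hol1 {ι : Type} (L : ι → X →L[ℂ] F) (hL : ∀ x, (∀ a, L a x = 0) → x = 0)
    {U : Set ℂ} (hU : IsOpen U) {f : ℂ → X} (hc : ContinuousOn f U)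
    (hd : ∀ a, DifferentiableOn ℂ (fun z => L a (f z)) U) : DifferentiableOn ℂ f U := by
  intro c hc'
  obtain ⟨r, hr, hb⟩ := Metric.nhds_basis_closedBall.mem_iff.1 (hU.mem_nhds hc')
  lift r to NNReal using hr.le
  have ci : ContinuousOn f (sphere c r) := hc.mono (sphere_subset_closedBall.trans hb)
  have a := (hasFPowerSeriesOn_cauchy_integral (ci.circleIntegrable r.coe_nonneg)
    (by exact_mod_cast hr)).analyticAt
  refine (a.differentiableAt.congr_of_eventuallyEq ?_).differentiableWithinAt
  filter_upwards [ball_mem_nhds c hr] with w hw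
  refine (sub_eq_zero.1 (hL _ fun a => ?_)).symm
  have i : CircleIntegrable (fun z => (z - w)⁻¹ • f z) c r :=
    (((continuousOn_id.sub continuousOn_const).inv₀ fun z hz => sub_ne_zero.2 fun e =>
      (mem_sphere.1 hz).not_lt (mem_ball.1 (show z ∈ ball c r from (show z = w from e) ▸ hw))).smul ci).circleIntegrable
        r.coe_nonneg
  have e := ((hd a).diffContOnCl_ball hb).two_pi_i_inv_smul_circleIntegral_sub_inv_smul hw
  rw [map_sub, map_smul, ← e, circleIntegral, ← (L a).intervalIntegral_comp_comm i.out, sub_eq_zero]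
  simp only [circleIntegral, map_smul]

/-- a continuous map which is weakly holomorphic is holomorphic -/
theorem weak_hol {ι : Type} (L : ι → X →L[ℂ] F) (hL : ∀ x, (∀ a, L a x = 0) → x = 0)
    {V : Set E} (hV : IsOpen V) {f : E → X} (hc : ContinuousOn f V)
    (hd : ∀ a, DifferentiableOn ℂ (fun z => L a (f z)) V) : DifferentiableOn ℂ f V := by
  refine osg (Module.finBasis ℂ E) hV hc fun x hx k => ?_
  have c : Continuous fun s : ℂ => x + s • Module.finBasis ℂ E k := by fun_prop
  exact (weak_hol1 L hL (hV.preimage c) (hc.comp c.continuousOn fun _ a => a) fun a =>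
    (hd a).comp (f := fun s : ℂ => x + s • Module.finBasis ℂ E k) (by fun_prop)
      fun _ a => a).differentiableAt ((hV.preimage c).mem_nhds (by simpa using hx))

theorem an_of_df {V : Set E} (hV : IsOpen V) {f : E → X} (h : DifferentiableOn ℂ f V) {x : E}
    (hx : x ∈ V) : AnalyticAt ℂ f x := P281.MF.analyticAt_of_differentiableOn hV h hx

end Vale.Agent.P275KI
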