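import Vale.Agent.P275KI.Wk
import Vale.Agent.P275KI.Hol
import Vale.Agent.P275RR.Ex
import Vale.Agent.P275MO.Props

/-!
# P275, block KI: the Banach spaces of continuous sections
-/

set_option linter.unusedSectionVars false

open scoped Topology ComplexConjugate ContDiff
open Filter Set Complex Metric
open Vale.Agent.P275GC Vale.Agent.P275GC.At
open Vale.Agent.P275NA (Fm Cy Wk db)
open Vale.Agent.P275RR (Rc SV rc_of)
open Vale.Agent.P275MO (Sct bar Slv)

noncomputable section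

namespace Vale.Agent.P275KI

variable {C : Type} [TopologicalSpace C] {A : At C}
variable {V V' V'' : Type} [NormedAddCommGroup V] [NormedSpace ℝ V] [NormedSpace ℂ V]
  [IsScalarTower ℝ ℂ V] [NormedAddCommGroup V'] [NormedSpace ℝ V'] [NormedSpace ℂ V']
  [IsScalarTower ℝ ℂ V'] [NormedAddCommGroup V''] [NormedSpace ℝ V''] [NormedSpace ℂ V'']
  [IsScalarTower ℝ ℂ V''] {G : Cy A (V →L[ℂ] V)} {G' : Cy A (V' →L[ℂ] V')}
  {G'' : Cy A (V'' →L[ℂ] V'')} {i j : Fin A.N} {z : ℂ} {s f : Fm A V}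

theorem mcb (h : ‖z‖ ≤ 1) : z ∈ closedBall (0 : ℂ) 1 := mem_closedBall_zero_iff.2 h

theorem sct_closed (G : Cy A (V →L[ℂ] V)) :
    IsClosed (Sct A G : Set (Fin A.N → C(closedBall (0 : ℂ) 1, V))) := by
  have e : (Sct A G : Set (Fin A.N → C(closedBall (0 : ℂ) 1, V))) =
      ⋂ (i) (j) (w : closedBall (0 : ℂ) 1) (h : A.tr i j w ∈ closedBall (0 : ℂ) 1)
        (_ : (w : ℂ) ∈ A.O i j), {u | u i w = G i j w (u j ⟨_, h⟩)} := by
    ext u
    simp only [mem_iInter]
    rfl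
  rw [e]
  exact isClosed_iInter fun i => isClosed_iInter fun j => isClosed_iInter fun w =>
    isClosed_iInter fun h => isClosed_iInter fun _ => isClosed_eq (by fun_prop) (by fun_prop)

instance cplSct [CompleteSpace V] (G : Cy A (V →L[ℂ] V)) : CompleteSpace (Sct A G) :=
  (sct_closed G).completeSpace_coe

theorem rc_bar (hG : Rc A G) : Rc A (bar A G) := hG.bar

theorem bar_apply (x : V) : bar A G i j z x = conj (A.d i j z) • G i j z x := rfl

/-- evaluation of a section at the point `z` of the chart `i` -/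
def evL (G : Cy A (V →L[ℂ] V)) (i : Fin A.N) (z : ℂ) : Sct A G →L[ℂ] V := by
  classical
  exact if h : A.tr i (A.pick i z) z ∈ closedBall (0 : ℂ) 1 then
    G i (A.pick i z) z ∘L ContinuousMap.evalCLM ℂ ⟨_, h⟩ ∘L
      ContinuousLinearMap.proj (A.pick i z) ∘L (Sct A G).subtypeL else 0

theorem evL_apply (u : Sct A G) : evL G i z u = Sct.fm A u i z := by
  by_cases h : A.tr i (A.pick i z) z ∈ closedBall (0 : ℂ) 1
  · simp only [evL, Sct.fm, xt, dif_pos h]; rfl
  · simp only [evL, Sct.fm, xt, dif_neg h, map_zero]; rfl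

@[simp] theorem fm_add (u v : Sct A G) :
    Sct.fm A (u + v) i z = Sct.fm A u i z + Sct.fm A v i z := by simp only [← evL_apply, map_add]

@[simp] theorem fm_sub (u v : Sct A G) :
    Sct.fm A (u - v) i z = Sct.fm A u i z - Sct.fm A v i z := by simp only [← evL_apply, map_sub]

@[simp] theorem fm_neg (u : Sct A G) : Sct.fm A (-u) i z = -Sct.fm A u i z := by
  simp only [← evL_apply, map_neg]

@[simp] theorem fm_smul (c : ℂ) (u : Sct A G) :
    Sct.fm A (c • u) i z = c • Sct.fm A u i z := by simp only [← evL_apply, map_smul]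

@[simp] theorem fm_zero : Sct.fm A (0 : Sct A G) i z = 0 := by simp only [← evL_apply, map_zero]

theorem fm_sum {ι : Type} (t : Finset ι) (u : ι → Sct A G) :
    Sct.fm A (∑ a ∈ t, u a) i z = ∑ a ∈ t, Sct.fm A (u a) i z := by
  simp only [← evL_apply, map_sum]

/-- `fm` as a linear map -/
def fmL (G : Cy A (V →L[ℂ] V)) : Sct A G →ₗ[ℂ] Fm A V where
  toFun := Sct.fm A
  map_add' u v := funext₂ fun _ _ => fm_add u v
  map_smul' c u := funext₂ fun _ _ => fm_smul c u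

theorem fm_eq (hG : Rc A G) (u : Sct A G) (h : z ∈ A.O i j)
    (hw : A.tr i j z ∈ closedBall (0 : ℂ) 1) : Sct.fm A u i z = G i j z (u.1 j ⟨_, hw⟩) := by
  obtain ⟨a, b⟩ := pick_spec h.1 i
  have c : A.tr j (A.pick i z) (A.tr i j z) ∈ closedBall (0 : ℂ) 1 := by
    rw [tr_tr h]; exact mcb b.le
  rw [u.2 j (A.pick i z) ⟨_, hw⟩ c (tr_O h a), ← mul_apply_eq_comp, ← hG.mul i j _ z h a]
  simp only [Sct.fm, xt, dif_pos (mcb b.le), tr_tr h]

theorem fm_unit (hG : Rc A G) (u : Sct A G) (h : z ∈ closedBall (0 : ℂ) 1) :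
    Sct.fm A u i z = u.1 i ⟨z, h⟩ := by
  have b := A.unit_sub h
  rw [fm_eq hG u (O_self b) (by rwa [tr_self b]), hG.one i z b]
  simp only [tr_self b, one_apply_eq_self]

theorem fm_sv (hG : Rc A G) (u : Sct A G) : SV A G (Sct.fm A u) := fun i j z h => by
  obtain ⟨k, a, b⟩ := ex_unit h.1 i
  have c : A.tr j k (A.tr i j z) ∈ closedBall (0 : ℂ) 1 := by rw [tr_tr h]; exact mcb b.le
  rw [fm_eq hG u a (mcb b.le), fm_eq hG u (tr_O h a) c, ← mul_apply_eq_comp,
    ← hG.mul i j k z h a]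
  simp only [tr_tr h]

theorem sct_ext (hG : Rc A G) {u v : Sct A G}
    (h : ∀ i z, ‖z‖ ≤ 1 → Sct.fm A u i z = Sct.fm A v i z) : u = v :=
  Subtype.ext (funext fun i => ContinuousMap.ext fun w => by
    rw [← fm_unit hG u w.2, ← fm_unit hG v w.2, h i w (mem_closedBall_zero_iff.1 w.2)])

theorem le_norm (hG : Rc A G) (u : Sct A G) (h : ‖z‖ ≤ 1) : ‖Sct.fm A u i z‖ ≤ ‖u‖ := by
  rw [fm_unit hG u (mcb h)]
  exact ((u.1 i).norm_coe_le_norm _).trans (norm_le_pi_norm u.1 i)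

theorem norm_le (hG : Rc A G) (u : Sct A G) {M : ℝ} (h0 : 0 ≤ M)
    (h : ∀ i z, ‖z‖ ≤ 1 → ‖Sct.fm A u i z‖ ≤ M) : ‖u‖ ≤ M :=
  (pi_norm_le_iff_of_nonneg h0).2 fun i => (ContinuousMap.norm_le _ h0).2 fun w =>
    (congrArg norm (fm_unit hG u w.2)).ge.trans (h i w (mem_closedBall_zero_iff.1 w.2))

section fam
variable {T : Type} [TopologicalSpace T] {W : Set T}

/-- joint continuity spreads from the unit discs -/
theorem joint_of_unit {s : T → Fm A V} {G : T → Cy A (V →L[ℂ] V)}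
    (hG : ∀ i j, ContinuousOn (fun p : T × ℂ => G p.1 i j p.2) (W ×ˢ A.O i j))
    (h : ∀ t ∈ W, SV A (G t) (s t))
    (hc : ∀ i, ContinuousOn (fun p : T × ℂ => s p.1 i p.2) (W ×ˢ ball 0 1)) (i : Fin A.N) :
    ContinuousOn (fun p : T × ℂ => s p.1 i p.2) (W ×ˢ ball 0 A.R) := fun p hp => by
  obtain ⟨j, a, b⟩ := ex_unit hp.2 i
  have n : {w | w ∈ A.O i j ∧ A.tr i j w ∈ ball (0 : ℂ) 1} ∈ 𝓝 p.2 := inter_mem (O_nhds a)
    ((an_tr a).continuousAt.eventually (isOpen_ball.mem_nhds (mem_ball_zero_iff.2 b)))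
  have m : W ×ˢ {w | w ∈ A.O i j ∧ A.tr i j w ∈ ball (0 : ℂ) 1} ∈ 𝓝[W ×ˢ ball 0 A.R] p := by
    filter_upwards [self_mem_nhdsWithin, mem_nhdsWithin_of_mem_nhds
      (continuous_snd.continuousAt.eventually n)] with q x y using ⟨x.1, y⟩
  refine (ContinuousOn.congr (((hG i j).mono (prod_mono_right fun _ x => x.1)).clm_apply
    ((hc j).comp (f := fun q : T × ℂ => (q.1, A.tr i j q.2)) (continuousOn_fst.prodMk
      ((A.hol i j).continuousOn.comp continuousOn_snd fun _ x => x.2.1))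
        fun _ x => mk_mem_prod x.1 x.2.2))
    (fun q x => h q.1 x.1 i j q.2 x.2.1) p
      (mk_mem_prod hp.1 (And.intro a (mem_ball_zero_iff.2 b)))).mono_of_mem_nhdsWithin m

theorem Rc.joint (hG : Rc A G) (i j : Fin A.N) :
    ContinuousOn (fun p : T × ℂ => G i j p.2) (W ×ˢ A.O i j) :=
  ContinuousOn.comp (g := G i j) (fun z h => (hG.sm i j z h).continuousAt.continuousWithinAt)
    continuousOn_snd fun _ x => x.2

theorem joint_unit (hG : Rc A G) {u : T → Sct A G} (hu : ContinuousOn u W) (i : Fin A.N) :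
    ContinuousOn (fun p : T × ℂ => Sct.fm A (u p.1) i p.2) (W ×ˢ closedBall 0 1) := by
  rw [continuousOn_iff_continuous_domRestrict] at hu ⊢
  have c : Continuous fun p : (W ×ˢ closedBall (0 : ℂ) 1 : Set (T × ℂ)) =>
      (u p.1.1).1 i ⟨p.1.2, p.2.2⟩ :=
    ((continuous_apply i).comp (continuous_subtype_val.comp (hu.comp (f := fun p :
      (W ×ˢ closedBall (0 : ℂ) 1 : Set (T × ℂ)) => (⟨p.1.1, p.2.1⟩ : W)) (by fun_prop)))).eval
      (by fun_prop)
  exact c.congr fun p => (fm_unit hG _ p.2.2).symm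

/-- a continuous family of sections is jointly continuous -/
theorem joint_fm (hG : Rc A G) {u : T → Sct A G} (hu : ContinuousOn u W) (i : Fin A.N) :
    ContinuousOn (fun p : T × ℂ => Sct.fm A (u p.1) i p.2) (W ×ˢ ball 0 A.R) :=
  joint_of_unit (G := fun _ => G) (s := fun t => Sct.fm A (u t)) (Rc.joint hG)
    (fun _ _ => fm_sv hG _)
    (fun i => (joint_unit hG hu i).mono (prod_mono_right ball_subset_closedBall)) i

theorem cont_of_joint (hG : Rc A G) {u : T → Sct A G} (h : ∀ i,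
    ContinuousOn (fun p : T × ℂ => Sct.fm A (u p.1) i p.2) (W ×ˢ closedBall 0 1)) :
    ContinuousOn u W := by
  rw [continuousOn_iff_continuous_domRestrict]
  refine continuous_induced_rng.2 (continuous_pi fun i =>
    ContinuousMap.continuous_of_continuous_uncurry _ ?_)
  exact ((h i).comp_continuous (f := fun p : W × closedBall (0 : ℂ) 1 => (p.1.1, p.2.1))
    (by fun_prop) fun p => ⟨p.1.2, p.2.2⟩).congr fun p => fm_unit hG _ p.2.2

end fam

theorem fm_ct (hG : Rc A G) (u : Sct A G) : A.Ct (Sct.fm A u) := fun i =>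
  (joint_fm (T := Unit) (W := univ) hG (u := fun _ => u) continuousOn_const i).comp
    (f := fun w => ((), w)) (by fun_prop) fun _ x => ⟨mem_univ _, x⟩

/-- weak holomorphy of a family of sections -/
theorem df_of_ev [CompleteSpace V] {E : Type} [NormedAddCommGroup E] [NormedSpace ℂ E]
    [FiniteDimensional ℂ E] (hG : Rc A G) {W : Set E} (hW : IsOpen W) {u : E → Sct A G}
    (hc : ContinuousOn u W)
    (h : ∀ i z, ‖z‖ ≤ 1 → DifferentiableOn ℂ (fun t => Sct.fm A (u t) i z) W) :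
    DifferentiableOn ℂ u W :=
  weak_hol (fun a : Fin A.N × closedBall (0 : ℂ) 1 => evL G a.1 a.2)
    (fun x hx => sct_ext hG fun i z hz => by rw [← evL_apply, hx (i, ⟨z, mcb hz⟩), fm_zero]) hW hc
    fun a => by simpa only [evL_apply] using h a.1 a.2 (mem_closedBall_zero_iff.1 a.2.2)

theorem df_fm {E : Type} [NormedAddCommGroup E] [NormedSpace ℂ E] {t : E} {u : E → Sct A G}
    (h : DifferentiableAt ℂ u t) (i : Fin A.N) (z : ℂ) :
    DifferentiableAt ℂ (fun t => Sct.fm A (u t) i z) t := by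
  simp only [← evL_apply]
  exact (evL G i z).differentiableAt.comp t h

variable (A G) in
/-- continuous sections over the closed unit discs -/
def US (s : Fm A V) : Prop := (∀ i, ContinuousOn (s i) (closedBall 0 1)) ∧
  ∀ i j, ∀ z ∈ A.O i j, ‖z‖ ≤ 1 → ‖A.tr i j z‖ ≤ 1 → s i z = G i j z (s j (A.tr i j z))

theorem us_of (hc : A.Ct s) (h : SV A G s) : US A G s :=
  ⟨fun i => (hc i).mono A.unit_sub, fun i j z a _ _ => h i j z a⟩

theorem us_res {r : ℝ} {h1 : 1 < r} {h2 : r ≤ A.R} (hc : (A.res r h1 h2).Ct s)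
    (h : SV (A.res r h1 h2) G s) : US A G s :=
  ⟨fun i => (hc i).mono (closedBall_subset_ball h1), fun i j z a b c => h i j z (res_O.2
    ⟨a, mem_ball_zero_iff.2 (b.trans_lt h1), mem_ball_zero_iff.2 (c.trans_lt h1)⟩)⟩

variable (G) in
/-- the element of the Banach space given by a family of functions -/
def mk (s : Fm A V) : Sct A G := by
  classical
  exact if h : US A G s then ⟨fun i => ⟨fun w => s i w, (h.1 i).domRestrict⟩, fun i j w a b =>
    h.2 i j w b (mem_closedBall_zero_iff.1 w.2) (mem_closedBall_zero_iff.1 a)⟩ else 0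

theorem fm_mk (hG : Rc A G) (h : US A G s) (hz : ‖z‖ ≤ 1) : Sct.fm A (mk G s) i z = s i z := by
  rw [fm_unit hG _ (mcb hz), mk, dif_pos h]
  rfl

theorem fm_mk_of (hG : Rc A G) (hc : A.Ct s) (h : SV A G s) (hz : z ∈ ball (0 : ℂ) A.R) :
    Sct.fm A (mk G s) i z = s i z :=
  (fm_sv hG _).ext h (fun _ _ a => fm_mk hG (us_of hc h) a.le) hz

theorem sv_res {r : ℝ} {h1 : 1 < r} {h2 : r ≤ A.R} (h : SV A G s) : SV (A.res r h1 h2) G s :=
  fun i j z a => h i j z (res_O.1 a).1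

theorem fm_mk_res {r : ℝ} {h1 : 1 < r} {h2 : r ≤ A.R} (hG : Rc A G) (hc : (A.res r h1 h2).Ct s)
    (h : SV (A.res r h1 h2) G s) (hz : z ∈ ball (0 : ℂ) r) : Sct.fm A (mk G s) i z = s i z :=
  P275RR.SV.ext (A := A.res r h1 h2) (sv_res (fm_sv hG _)) h
    (fun _ _ a => fm_mk hG (us_res hc h) a.le) hz

theorem mk_fm (hG : Rc A G) (u : Sct A G) : mk G (Sct.fm A u) = u :=
  sct_ext hG fun _ _ a => fm_mk hG (us_of (fm_ct hG u) (fm_sv hG u)) a

theorem cont_mk (hG : Rc A G) {T : Type} [TopologicalSpace T] {W : Set T} {s : T → Fm A V}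
    (h : ∀ t ∈ W, US A G (s t))
    (hc : ∀ i, ContinuousOn (fun p : T × ℂ => s p.1 i p.2) (W ×ˢ closedBall 0 1)) :
    ContinuousOn (fun t => mk G (s t)) W :=
  cont_of_joint hG fun i => (hc i).congr fun p a =>
    fm_mk hG (h p.1 a.1) (mem_closedBall_zero_iff.1 a.2)

theorem df_mk [CompleteSpace V] {E : Type} [NormedAddCommGroup E] [NormedSpace ℂ E]
    [FiniteDimensional ℂ E] (hG : Rc A G) {W : Set E} (hW : IsOpen W) {s : E → Fm A V}
    (h : ∀ t ∈ W, US A G (s t))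
    (hc : ∀ i, ContinuousOn (fun p : E × ℂ => s p.1 i p.2) (W ×ˢ closedBall 0 1))
    (hd : ∀ i z, ‖z‖ ≤ 1 → DifferentiableOn ℂ (fun t => s t i z) W) :
    DifferentiableOn ℂ (fun t => mk G (s t)) W :=
  df_of_ev hG hW (cont_mk hG h hc) fun i z a => (hd i z a).congr fun t b => fm_mk hG (h t b) a

/-- the action of a map of the fibres which commutes with the cocycles -/
def lin (L : V →L[ℂ] V') (h : ∀ i j, ∀ z ∈ A.O i j, ∀ x, L (G i j z x) = G' i j z (L x)) :
    Sct A G →L[ℂ] Sct A G' :=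
  ((ContinuousLinearMap.pi fun i => L.compLeftContinuous ℂ (closedBall (0 : ℂ) 1) ∘L
    ContinuousLinearMap.proj i) ∘L (Sct A G).subtypeL).codRestrict _ fun u i j w a b =>
      (congrArg L (u.2 i j w a b)).trans (h i j w b _)

theorem fm_lin (L : V →L[ℂ] V') (h : ∀ i j, ∀ z ∈ A.O i j, ∀ x, L (G i j z x) = G' i j z (L x))
    (u : Sct A G) (hz : z ∈ ball (0 : ℂ) A.R) :
    Sct.fm A (lin L h u) i z = L (Sct.fm A u i z) := by
  obtain ⟨a, b⟩ := pick_spec hz i
  simp only [Sct.fm, xt, dif_pos (mcb b.le), h i _ z a]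
  rfl

/-- the product for a bilinear map of the fibres which commutes with the cocycles -/
def bil (B : V →L[ℂ] V' →L[ℂ] V'')
    (h : ∀ i j, ∀ z ∈ A.O i j, ∀ x y, B (G i j z x) (G' i j z y) = G'' i j z (B x y)) :
    Sct A G →L[ℂ] Sct A G' →L[ℂ] Sct A G'' :=
  LinearMap.mkContinuous₂ (LinearMap.mk₂ ℂ (fun (u : Sct A G) (v : Sct A G') =>
    (⟨fun i => ⟨fun w => B (u.1 i w) (v.1 i w), by fun_prop⟩, fun i j w a b => by
      show B (u.1 i w) (v.1 i w) = G'' i j w (B (u.1 j ⟨_, a⟩) (v.1 j ⟨_, a⟩))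
      rw [u.2 i j w a b, v.2 i j w a b, h i j w b]⟩ : Sct A G''))
    (fun _ _ _ => by ext; simp) (fun _ _ _ => by ext; simp) (fun _ _ _ => by ext; simp)
    (fun _ _ _ => by ext; simp)) ‖B‖ fun u v =>
      (pi_norm_le_iff_of_nonneg (by positivity)).2 fun i =>
        (ContinuousMap.norm_le _ (by positivity)).2 fun w => (B.le_opNorm₂ _ _).trans (by
          gcongr
          exacts [((u.1 i).norm_coe_le_norm w).trans (norm_le_pi_norm u.1 i),
            ((v.1 i).norm_coe_le_norm w).trans (norm_le_pi_norm v.1 i)])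

theorem fm_bil (B : V →L[ℂ] V' →L[ℂ] V'')
    (h : ∀ i j, ∀ z ∈ A.O i j, ∀ x y, B (G i j z x) (G' i j z y) = G'' i j z (B x y))
    (u : Sct A G) (v : Sct A G') (hz : z ∈ ball (0 : ℂ) A.R) :
    Sct.fm A (bil B h u v) i z = B (Sct.fm A u i z) (Sct.fm A v i z) := by
  obtain ⟨a, b⟩ := pick_spec hz i
  simp only [Sct.fm, xt, dif_pos (mcb b.le), h i _ z a]
  rfl

theorem fm_sm (hG : Rc A G) (u : Sct A G) {k : ℕ∞}
    (h : ∀ i z, ‖z‖ < 1 → ContDiffAt ℝ k (Sct.fm A u i) z) : A.Sm k (Sct.fm A u) :=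
  (fm_sv hG u).sm_of_unit hG h

section weak
variable [CompleteSpace V]

variable (A) in
/-- `db s = f` in the weak sense on all discs -/
def WD (s f : Fm A V) : Prop := ∀ i, ∀ z ∈ ball (0 : ℂ) A.R, WA (s i) (f i) z

/-- the weak equation spreads from the unit discs -/
theorem wd_of_unit (hG : A.Cc G) (hs : SV A G s) (hf : SV A (bar A G) f)
    (h : ∀ i z, ‖z‖ < 1 → WA (s i) (f i) z) : WD A s f := fun i z hz => by
  obtain ⟨j, a, b⟩ := ex_unit hz i
  refine ((wa_an (hG.an a)).app ((h j _ b).comp (an_tr a))).congr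
    (eventually_of_mem (O_nhds a) (hs i j)) (eventually_of_mem (O_nhds a) fun w x => ?_)
  simp only [hf i j w x, bar_apply, _root_.zero_apply, zero_add, map_smul, d]

theorem WD.hl (h : WD A s fun _ _ => 0) : A.Hl s := fun i z hz =>
  ((h i z hz).an (Eventually.of_forall fun _ => rfl)).differentiableAt.differentiableWithinAt

theorem wd_hl (h : A.Hl s) : WD A s fun _ _ => 0 := fun i _ hz => wa_an (h.an hz i)

theorem wd_sm (h : A.Sm 1 s) : WD A s fun i => db (s i) := fun i _ hz => wa_cd (h.at hz i)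

theorem WD.sm (h : WD A s f) {k : ℕ∞} (hk : 1 ≤ k) (hf : A.Sm k f) :
    A.Sm k s ∧ ∀ i, ∀ z ∈ ball (0 : ℂ) A.R, db (s i) z = f i z :=
  have a := fun i z hz => (h i z hz).cd hk
    (eventually_of_mem (isOpen_ball.mem_nhds hz) fun _ x => hf.at x i)
  ⟨fun i z hz => (a i z hz).1.contDiffWithinAt, fun i z hz => (a i z hz).2⟩

theorem WD.congr {s' f' : Fm A V} (h : WD A s f) (h1 : ∀ i, ∀ z ∈ ball (0 : ℂ) A.R, s' i z = s i z)
    (h2 : ∀ i, ∀ z ∈ ball (0 : ℂ) A.R, f' i z = f i z) : WD A s' f' := fun i z hz =>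
  (h i z hz).congr (eventually_of_mem (isOpen_ball.mem_nhds hz) (h1 i))
    (eventually_of_mem (isOpen_ball.mem_nhds hz) (h2 i))

theorem wd_iff (hG : Rc A G) (u : Sct A G) (v : Sct A (bar A G)) :
    WD A (Sct.fm A u) (Sct.fm A v) ↔ ∀ i, Wk (ball 0 A.R) (Sct.fm A u i) (Sct.fm A v i) :=
  forall_congr' fun i => (wk_iff isOpen_ball (fm_ct hG u i) (fm_ct (rc_bar hG) v i)).symm

theorem wd_fm (hG : A.Cc G) {u : Sct A G} {v : Sct A (bar A G)}
    (h : ∀ i z, ‖z‖ < 1 → WA (Sct.fm A u i) (Sct.fm A v i) z) : WD A (Sct.fm A u) (Sct.fm A v) :=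
  wd_of_unit hG (fm_sv (rc_of hG) u) (fm_sv (rc_bar (rc_of hG)) v) h

theorem slv_wd (hG : A.Cc G) (K : Slv A G) (v : Sct A (bar A G)) :
    WD A (Sct.fm A (K.S v)) (Sct.fm A (v - K.π v)) := (wd_iff (rc_of hG) _ _).2 (K.wk v)

theorem slv_uni (hG : A.Cc G) (K : Slv A G) {u : Sct A G} {v : Sct A (bar A G)}
    (h : ∀ i z, ‖z‖ < 1 → WA (Sct.fm A u i) (Sct.fm A v i) z) : K.π v = 0 ∧ u = K.S v + K.p u :=
  K.uni u v ((wd_iff (rc_of hG) _ _).1 (wd_fm hG h))

end weak

end Vale.Agent.P275KI
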