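import Vale.Agent.P275CT.Pot

/-!
# P275, block KI: calculus of weak `∂̄` derivatives of continuous functions
-/

set_option linter.unusedSectionVars false

open scoped Topology ComplexConjugate ContDiff
open Filter Set Complex Metric MeasureTheory
open Vale.Agent.P281Z.Hm Vale.Agent.P275NA Vale.Agent.P275CT

noncomputable section

namespace Vale.Agent.P275KI

theorem tlu_iff {ι X Y : Type*} [TopologicalSpace X] [UniformSpace Y] {F : ι → X → Y} {f : X → Y}
    {l : Filter ι} {s : Set X} (hf : ContinuousOn f s) : TendstoLocallyUniformlyOn F f l s ↔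
      ∀ x ∈ s, Tendsto (fun y : ι × X => F y.1 y.2) (l ×ˢ 𝓝[s] x) (𝓝 (f x)) := by
  rw [tendstoLocallyUniformlyOn_iff_forall_tendsto]
  refine forall₂_congr fun x hx => ?_
  have h : Tendsto (fun y : ι × X => f y.2) (l ×ˢ 𝓝[s] x) (𝓝 (f x)) := (hf x hx).tendsto.comp tendsto_snd
  exact ⟨fun a => h.congr_uniformity a, fun a => (h.prodMk_nhds a).mono_right (nhds_le_uniformity _)⟩

variable {F F' F'' : Type} [NormedAddCommGroup F] [NormedSpace ℝ F] [NormedSpace ℂ F]
  [IsScalarTower ℝ ℂ F] [NormedAddCommGroup F'] [NormedSpace ℝ F'] [NormedSpace ℂ F']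
  [IsScalarTower ℝ ℂ F'] [NormedAddCommGroup F''] [NormedSpace ℝ F''] [NormedSpace ℂ F'']
  [IsScalarTower ℝ ℂ F''] {u G u' G' : ℂ → F} {v H : ℂ → F'} {z : ℂ} {U : Set ℂ}

/-- `u` and `G` are continuous near `z`, and `db u = G` near `z` in the weak sense -/
def WA (u G : ℂ → F) (z : ℂ) : Prop := ∃ s : ℕ → ℂ → F, ∀ᶠ w in 𝓝 z,
  ContinuousAt u w ∧ ContinuousAt G w ∧ (∀ k, ContDiffAt ℝ 1 (s k) w) ∧
    Tendsto (fun y : ℕ × ℂ => s y.1 y.2) (atTop ×ˢ 𝓝 w) (𝓝 (u w)) ∧
    Tendsto (fun y : ℕ × ℂ => db (s y.1) y.2) (atTop ×ˢ 𝓝 w) (𝓝 (G w))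

theorem WA.ev (h : WA u G z) : ∀ᶠ w in 𝓝 z, WA u G w :=
  let ⟨s, hs⟩ := h; hs.eventually_nhds.mono fun _ a => ⟨s, a⟩

theorem WA.ct (h : WA u G z) : ContinuousAt u z := h.choose_spec.self_of_nhds.1

theorem WA.ct' (h : WA u G z) : ContinuousAt G z := h.choose_spec.self_of_nhds.2.1

theorem WA.congr (h : WA u G z) (h1 : u' =ᶠ[𝓝 z] u) (h2 : G' =ᶠ[𝓝 z] G) : WA u' G' z := by
  obtain ⟨s, hs⟩ := h
  refine ⟨s, ?_⟩
  filter_upwards [hs, h1.eventuallyEq_nhds, h2.eventuallyEq_nhds] with w a b c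
  exact ⟨a.1.congr b.symm, a.2.1.congr c.symm, a.2.2.1, b.self_of_nhds ▸ a.2.2.2.1,
    c.self_of_nhds ▸ a.2.2.2.2⟩

theorem ca_db (h : ContDiffAt ℝ 1 u z) : ContinuousAt (db u) z := by
  obtain ⟨V, a, b, c⟩ := _root_.eventually_nhds_iff.1 (h.eventually (by simp))
  exact (db_contOn b fun w hw => (a w hw).contDiffWithinAt).continuousAt (b.mem_nhds c)

theorem wa_cd (h : ContDiffAt ℝ 1 u z) : WA u (db u) z :=
  ⟨fun _ => u, (h.eventually (by simp)).mono fun _ a => ⟨a.continuousAt, ca_db a, fun _ => a,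
    a.continuousAt.tendsto.comp tendsto_snd, (ca_db a).tendsto.comp tendsto_snd⟩⟩

theorem wa_an [CompleteSpace F] (h : AnalyticAt ℂ u z) : WA u (fun _ => 0) z :=
  (wa_cd (h.contDiffAt.restrict_scalars ℝ)).congr EventuallyEq.rfl
    (h.eventually_analyticAt.mono fun _ a => (wb_hol a.differentiableAt 1).symm)

theorem wa_const (c : F) : WA (fun _ => c) (fun _ => 0) z :=
  (wa_cd contDiffAt_const).congr EventuallyEq.rfl (Eventually.of_forall fun w => (wb_const c 1 w).symm)

theorem WA.prod (h : WA u G z) (h' : WA v H z) :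
    WA (fun w => (u w, v w)) (fun w => (G w, H w)) z := by
  obtain ⟨s, hs⟩ := h
  obtain ⟨t, ht⟩ := h'
  refine ⟨fun k w => (s k w, t k w), ?_⟩
  filter_upwards [hs, ht, hs.eventually_nhds, ht.eventually_nhds] with w a b c d
  refine ⟨a.1.prodMk b.1, a.2.1.prodMk b.2.1, fun k => (a.2.2.1 k).prodMk (b.2.2.1 k),
    a.2.2.2.1.prodMk_nhds b.2.2.2.1, (a.2.2.2.2.prodMk_nhds b.2.2.2.2).congr' ?_⟩
  filter_upwards [tendsto_snd.eventually c, tendsto_snd.eventually d] with y p q
  have e := ((p.2.2.1 y.1).prodMk (q.2.2.1 y.1)).differentiableAt one_ne_zero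
  exact Prod.ext (wb_clm (ContinuousLinearMap.fst ℂ F F') e 1)
    (wb_clm (ContinuousLinearMap.snd ℂ F F') e 1)

theorem db_hol {Φ : F → F'} (hΦ : DifferentiableAt ℂ Φ (u z)) (hu : DifferentiableAt ℝ u z) :
    db (fun w => Φ (u w)) z = fderiv ℂ Φ (u z) (db u z) := by
  have := fderiv_comp z (hΦ.restrictScalars ℝ) hu
  rw [db, wb, show (fun w => Φ (u w)) = Φ ∘ u from rfl, this, db, wb]
  simp only [ContinuousLinearMap.comp_apply, fderiv_hol hΦ, map_smul, map_add]

/-- the chain rule for a holomorphic outer map -/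
theorem WA.hol_comp {Φ : F → F'} (h : WA u G z) (hΦ : ContDiffAt ℂ 1 Φ (u z)) :
    WA (fun w => Φ (u w)) (fun w => fderiv ℂ Φ (u w) (G w)) z := by
  obtain ⟨s, hs⟩ := h
  have e0 := hΦ.eventually (by simp)
  obtain ⟨p, ⟨k, hk⟩, q, hq, e1⟩ := eventually_prod_iff.1 (hs.self_of_nhds.2.2.2.1.eventually e0) |>.imp
    fun _ a => And.intro (eventually_atTop.1 a.1) a.2
  have sh : ∀ w : ℂ, Tendsto (fun y : ℕ × ℂ => (y.1 + k, y.2)) (atTop ×ˢ 𝓝 w) (atTop ×ˢ 𝓝 w) :=
    fun w => (tendsto_add_atTop_nat k).prodMap tendsto_id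
  refine ⟨fun j w => Φ (s (j + k) w), ?_⟩
  filter_upwards [hs, hs.eventually_nhds, hq, hq.eventually_nhds,
    hs.self_of_nhds.1.eventually e0] with w a b c d e
  have f : ContinuousAt (fderiv ℂ Φ) (u w) := (e.fderiv_right (m := 0) le_rfl).continuousAt
  refine ⟨e.continuousAt.comp a.1, (f.comp a.1).clm_apply a.2.1, fun j =>
    ((e1 (hk _ (Nat.le_add_left _ _)) c).restrict_scalars ℝ).comp w (a.2.2.1 _),
    e.continuousAt.tendsto.comp (a.2.2.2.1.comp (sh w)), ?_⟩
  have t := (isBoundedBilinearMap_apply (𝕜 := ℂ) (E := F) (F := F')).continuous.continuousAt.tendsto.comp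
    ((f.tendsto.comp (a.2.2.2.1.comp (sh w))).prodMk_nhds (a.2.2.2.2.comp (sh w)))
  refine t.congr' ?_
  filter_upwards [tendsto_snd.eventually b, tendsto_snd.eventually d] with y p' q'
  exact (db_hol ((e1 (hk _ (Nat.le_add_left _ _)) q').differentiableAt one_ne_zero)
    ((p'.2.2.1 _).differentiableAt one_ne_zero)).symm

theorem WA.clm (L : F →L[ℂ] F') (h : WA u G z) : WA (fun w => L (u w)) (fun w => L (G w)) z := by
  simpa only [L.fderiv] using h.hol_comp L.contDiff.contDiffAt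

theorem WA.add (h : WA u G z) (h' : WA u' G' z) :
    WA (fun w => u w + u' w) (fun w => G w + G' w) z :=
  (h.prod h').clm (ContinuousLinearMap.fst ℂ F F + ContinuousLinearMap.snd ℂ F F)

theorem WA.sub (h : WA u G z) (h' : WA u' G' z) :
    WA (fun w => u w - u' w) (fun w => G w - G' w) z :=
  (h.prod h').clm (ContinuousLinearMap.fst ℂ F F - ContinuousLinearMap.snd ℂ F F)

theorem WA.neg (h : WA u G z) : WA (fun w => -u w) (fun w => -G w) z :=
  h.clm (-ContinuousLinearMap.id ℂ F)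

theorem WA.csmul (c : ℂ) (h : WA u G z) : WA (fun w => c • u w) (fun w => c • G w) z :=
  h.clm (c • ContinuousLinearMap.id ℂ F)

theorem WA.sum {ι : Type} (t : Finset ι) {u G : ι → ℂ → F} (h : ∀ a ∈ t, WA (u a) (G a) z) :
    WA (fun w => ∑ a ∈ t, u a w) (fun w => ∑ a ∈ t, G a w) z := by
  classical
  induction t using Finset.induction_on with
  | empty => simpa using wa_const (0 : F)
  | insert a t ha ih =>
    simp only [Finset.sum_insert ha]
    exact (h a (Finset.mem_insert_self _ _)).add (ih fun b hb => h b (Finset.mem_insert_of_mem hb))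

/-- the Leibniz rule -/
theorem WA.bil (B : F →L[ℂ] F' →L[ℂ] F'') (h : WA u G z) (h' : WA v H z) :
    WA (fun w => B (u w) (v w)) (fun w => B (G w) (v w) + B (u w) (H w)) z := by
  have := (h.prod h').hol_comp (Φ := fun p => B p.1 p.2) B.isBoundedBilinearMap.contDiff.contDiffAt
  refine this.congr EventuallyEq.rfl (Eventually.of_forall fun w => ?_)
  have e := (B.isBoundedBilinearMap.hasFDerivAt (u w, v w)).fderiv
  simp only [e, IsBoundedBilinearMap.deriv_apply, add_comm]

theorem WA.smul {a b : ℂ → ℂ} (h : WA a b z) (h' : WA u G z) :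
    WA (fun w => a w • u w) (fun w => b w • u w + a w • G w) z :=
  h.bil (ContinuousLinearMap.lsmul ℂ ℂ) h'

theorem WA.app {a b : ℂ → F →L[ℂ] F'} (h : WA a b z) (h' : WA u G z) :
    WA (fun w => a w (u w)) (fun w => b w (u w) + a w (G w)) z :=
  h.bil (ContinuousLinearMap.id ℂ (F →L[ℂ] F')) h'

/-- change of the coordinate -/
theorem WA.comp {τ : ℂ → ℂ} (hτ : AnalyticAt ℂ τ z) (h : WA u G (τ z)) :
    WA (fun w => u (τ w)) (fun w => conj (deriv τ w) • G (τ w)) z := by
  obtain ⟨s, hs⟩ := h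
  have h1 := hτ.continuousAt.eventually hs
  refine ⟨fun k w => s k (τ w), ?_⟩
  filter_upwards [h1, h1.eventually_nhds, hτ.eventually_analyticAt,
    hτ.eventually_analyticAt.eventually_nhds] with w a b c d
  have t : Tendsto (fun y : ℕ × ℂ => (y.1, τ y.2)) (atTop ×ˢ 𝓝 w) (atTop ×ˢ 𝓝 (τ w)) :=
    tendsto_id.prodMap c.continuousAt
  have e : ContinuousAt (fun w => conj (deriv τ w)) w :=
    continuous_conj.continuousAt.comp c.deriv.continuousAt
  refine ⟨a.1.comp c.continuousAt, e.smul (a.2.1.comp c.continuousAt), fun k =>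
    (a.2.2.1 k).comp w (c.contDiffAt.restrict_scalars ℝ), a.2.2.2.1.comp t,
    ((e.tendsto.comp tendsto_snd).smul (a.2.2.2.2.comp t)).congr' ?_⟩
  filter_upwards [tendsto_snd.eventually b, tendsto_snd.eventually d] with y p q
  rw [db, wb_comp ((p.2.2.1 _).differentiableAt one_ne_zero) q.differentiableAt]
  have := wb_smulv (deriv τ y.2) (s y.1) (τ y.2) 1
  rw [smul_eq_mul, mul_one] at this
  exact this.symm

theorem wk_sub (hU : IsOpen U) (hu : ContinuousOn u U) (hG : ContinuousOn G U)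
    (hu' : ContinuousOn u' U) (hG' : ContinuousOn G' U) (h : Wk U u G) (h' : Wk U u' G') :
    Wk U (fun w => u w - u' w) fun w => G w - G' w := fun φ a b c => by
  have d := (db_ts φ).trans c
  simp only [smul_sub]
  rw [integral_sub (int_cut hU (db_cont a) (db_cs b) d hu) (int_cut hU (db_cont a) (db_cs b) d hu'),
    integral_sub (int_cut hU a.continuous b c hG) (int_cut hU a.continuous b c hG'), h φ a b c,
    h' φ a b c, neg_sub_neg, neg_sub]

variable [CompleteSpace F]

theorem WA.wk (h : WA u G z) : ∃ V, IsOpen V ∧ z ∈ V ∧ ContinuousOn u V ∧ ContinuousOn G V ∧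
    Wk V u G := by
  obtain ⟨s, hs⟩ := h
  obtain ⟨V, a, b, c⟩ := _root_.eventually_nhds_iff.1 hs
  have c1 : ContinuousOn u V := fun w hw => (a w hw).1.continuousWithinAt
  have c2 : ContinuousOn G V := fun w hw => (a w hw).2.1.continuousWithinAt
  have d : ∀ k, ContDiffOn ℝ 1 (s k) V := fun k w hw => ((a w hw).2.2.1 k).contDiffWithinAt
  exact ⟨V, b, c, c1, c2, wk_lim b (fun k => (d k).continuousOn) (fun k => db_contOn b (d k))
    (fun k => wk_db b (d k))
    ((tlu_iff c1).2 fun w hw => (a w hw).2.2.2.1.mono_left (prod_mono_right _ nhdsWithin_le_nhds))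
    ((tlu_iff c2).2 fun w hw => (a w hw).2.2.2.2.mono_left (prod_mono_right _ nhdsWithin_le_nhds))⟩

theorem wa_cT (hG : Continuous G) (cG : HasCompactSupport G) (z : ℂ) : WA (cT G) G z := by
  obtain ⟨R, hR, hs⟩ := ex_R cG
  obtain ⟨s, h⟩ := approx hG
  have ss : ∀ j z, R < ‖z‖ → s j z = 0 := fun j z hz => (h j).2.2 z (hs z hz)
  have h1 : ∀ j, ContDiff ℝ 1 (s j) := fun j => (h j).1.of_le (by exact_mod_cast le_top)
  have t : TendstoUniformly (fun j => cT (s j)) (cT G) atTop :=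
    tu_of (3 * R) fun j z => cT_close (h1 j).continuous hG hR (ss j) hs (h j).2.1 z
  have t' : TendstoUniformly s G atTop := tu_of 1 fun j z => by rw [one_mul]; exact (h j).2.1 z
  refine ⟨fun j => cT (s j), Eventually.of_forall fun w => ⟨(cT_cont hG cG).continuousAt,
    hG.continuousAt, fun j => (cT_cd (n := 1) (h1 j) (cs_of (ss j))).contDiffAt, ?_, ?_⟩⟩
  · simpa only [nhdsWithin_univ] using (tlu_iff (cT_cont hG cG).continuousOn).1
      t.tendstoLocallyUniformly.tendstoLocallyUniformlyOn w (mem_univ w)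
  · simpa only [nhdsWithin_univ, fun j => db_cT (h1 j) (cs_of (ss j))] using
      (tlu_iff hG.continuousOn).1 t'.tendstoLocallyUniformly.tendstoLocallyUniformlyOn w (mem_univ w)

/-- the lemma of Weyl -/
theorem WA.an (h : WA u G z) (h0 : ∀ᶠ w in 𝓝 z, G w = 0) : AnalyticAt ℂ u z := by
  obtain ⟨V, a, b, c, d, e⟩ := h.wk
  obtain ⟨W, a', b', c'⟩ := _root_.eventually_nhds_iff.1 h0
  exact ((weyl F _ u G (a.inter b') (c.mono inter_subset_left) (d.mono inter_subset_left)
    (wk_mono e inter_subset_left)).1 fun w hw => a' w hw.2).analyticAt ((a.inter b').mem_nhds ⟨b, c'⟩)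

theorem WA.cd (h : WA u G z) {k : ℕ∞} (hk : 1 ≤ k) (hG : ∀ᶠ w in 𝓝 z, ContDiffAt ℝ k G w) :
    ContDiffAt ℝ k u z ∧ db u z = G z := by
  obtain ⟨V, a, b, c, d, e⟩ := h.wk
  obtain ⟨W, a', b', c'⟩ := _root_.eventually_nhds_iff.1 hG
  have := (weyl F _ u G (a.inter b') (c.mono inter_subset_left) (d.mono inter_subset_left)
    (wk_mono e inter_subset_left)).2 k hk fun w hw => (a' w hw.2).contDiffWithinAt
  exact ⟨this.1.contDiffAt ((a.inter b').mem_nhds ⟨b, c'⟩), this.2 z ⟨b, c'⟩⟩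

theorem WA.uniq (h : WA u G z) (h' : WA u G' z) : G z = G' z := by
  have a := h.sub h'
  simp only [sub_self] at a
  obtain ⟨V, b, c, -, d, e⟩ := a.wk
  obtain ⟨ε, hε, hb⟩ := Metric.nhds_basis_closedBall.mem_iff.1 (b.mem_nhds c)
  obtain ⟨η, h1, h2, -, h4, h5⟩ := ex_cutC z (half_pos hε) (half_lt_self hε)
  have hs : tsupport η ⊆ V := h5 ▸ hb
  have r := congrFun (eq_of_test (cont_cut b h1.continuous hs d) continuous_zero fun ψ p q => by
    have := e (fun w => ψ w * η w) (p.mul (h1.of_le (by exact_mod_cast le_top))) q.mul_right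
      ((tsupport_mul_subset_right).trans hs)
    simp only [smul_zero, integral_zero, zero_eq_neg, mul_smul] at this
    simpa using this) z
  rwa [h4 z (mem_closedBall_self (half_pos hε).le), one_smul, Pi.zero_apply, sub_eq_zero] at r

theorem ex_eta {K : Set ℂ} (hK : IsCompact K) (hU : IsOpen U) (h : K ⊆ U) : ∃ (η : ℂ → ℂ)
    (W : Set ℂ), Continuous η ∧ HasCompactSupport η ∧ tsupport η ⊆ U ∧ IsOpen W ∧ K ⊆ W ∧ W ⊆ U ∧
      ∀ w ∈ W, η w = 1 := by
  obtain ⟨L, a, b, c⟩ := exists_compact_between hK hU h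
  obtain ⟨L', a', b', c'⟩ := exists_compact_between a hU c
  obtain ⟨f, p, q, r, -⟩ := exists_continuous_one_zero_of_isCompact a
    isOpen_interior.isClosed_compl (disjoint_compl_right_iff_subset.2 b')
  have e : tsupport (fun w => (f w : ℂ)) ⊆ L' := closure_minimal (fun w hw => interior_subset
    (by_contra fun x => hw (by simp [q x]))) a'.isClosed
  exact ⟨fun w => f w, interior L, continuous_ofReal.comp f.continuous,
    a'.of_isClosed_subset (isClosed_tsupport _) e, e.trans c', isOpen_interior, b,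
    interior_subset.trans c, fun w hw => by simp [p (interior_subset hw)]⟩

theorem wa_of_wk (hU : IsOpen U) (hu : ContinuousOn u U) (hG : ContinuousOn G U) (h : Wk U u G)
    (hz : z ∈ U) : WA u G z := by
  obtain ⟨η, W, a, b, c, d, e, f, g⟩ := ex_eta isCompact_singleton hU (singleton_subset_iff.2 hz)
  have c1 := cont_cut hU a c hG
  have c2 := cs_cut b G
  have hw := d.mem_nhds (e rfl)
  have q := ((weyl F W _ _ d ((hu.mono f).sub (cT_cont c1 c2).continuousOn)
    ((hG.mono f).sub c1.continuousOn) (wk_sub d (hu.mono f) (hG.mono f) (cT_cont c1 c2).continuousOn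
      c1.continuousOn (wk_mono h f) (wk_cT c1 c2 W))).1 fun w x => by simp [g w x]).analyticAt hw
  exact ((wa_an q).add (wa_cT c1 c2 z)).congr (Eventually.of_forall fun w => by simp)
    (eventually_of_mem hw fun w x => by simp [g w x])

theorem wk_of_wa (hU : IsOpen U) (h : ∀ z ∈ U, WA u G z) : Wk U u G := fun φ p q r => by
  obtain ⟨η, W, a, b, c, d, e, f, g⟩ := ex_eta q.isCompact hU r
  have hG : ContinuousOn G U := fun w x => (h w x).ct'.continuousWithinAt
  have c1 := cont_cut hU a c hG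
  have c2 := cs_cut b G
  have s : ∀ w ∈ W, AnalyticAt ℂ (fun w => u w - cT (fun y => η y • G y) w) w := fun w x =>
    ((h w (f x)).sub (wa_cT c1 c2 w)).an (eventually_of_mem (d.mem_nhds x) fun y x => by simp [g y x])
  have s1 : ContDiffOn ℝ 1 (fun w => u w - cT (fun y => η y • G y) w) W := fun w x =>
    ((s w x).contDiffAt.restrict_scalars ℝ).contDiffWithinAt
  have t := wk_sub d s1.continuousOn (db_contOn d s1) (cT_cont c1 c2).continuousOn.neg
    c1.continuousOn.neg (wk_db d s1) (fun ψ x y _ => by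
      have := wk_cT c1 c2 univ ψ x y (subset_univ _)
      simp only [Pi.neg_apply, smul_neg, integral_neg, this])
  exact wk_congr t (fun w _ => by simp) (fun w x => by
    simp [g w x, wb_hol (s w x).differentiableAt 1]) φ p q e

theorem wk_iff (hU : IsOpen U) (hu : ContinuousOn u U) (hG : ContinuousOn G U) :
    Wk U u G ↔ ∀ z ∈ U, WA u G z := ⟨fun h _ => wa_of_wk hU hu hG h, wk_of_wa hU⟩

end Vale.Agent.P275KI
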