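import Vale.Agent.P275KI.Exi

/-!
# P275, block KI: uniqueness in the local groupoid
-/

set_option linter.unusedSectionVars false

open scoped Topology ComplexConjugate ContDiff Matrix.Norms.Operator
open Filter Set Complex Metric Matrix
open Vale.Agent.P275GC Vale.Agent.P275GC.At
open Vale.Agent.P275NA (Fm Cy Mn db dz fc)
open Vale.Agent.P275RR (Rc SV rc_of)
open Vale.Agent.P275MO

noncomputable section

namespace Vale.Agent.P275KI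

variable {C : Type} [TopologicalSpace C] {A : At C} {n : ℕ} {l : Cy A ℂ} {g0 : Cy A (Mn n)}

theorem mat_law {F φ F' g G ψ G' : Mn n} (a : F.det ≠ 0) (b : G'.det ≠ 0)
    (h : φ * (F'⁻¹ * g * G') = F⁻¹ * g * G * ψ) :
    (F * φ * F'⁻¹ - 1) * g = (1 : ℂ) • (g * (G * ψ * G'⁻¹ - 1)) := by
  have := congrArg (fun X => F * X * G'⁻¹) h
  simp only [← Matrix.mul_assoc, mul_nonsing_inv _ a.isUnit, Matrix.one_mul,
    mul_nonsing_inv_cancel_right _ _ b.isUnit] at this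
  rw [one_smul, Matrix.sub_mul, Matrix.mul_sub, Matrix.one_mul, Matrix.mul_one, this]
  simp only [Matrix.mul_assoc]

/-- the endomorphism given by an isomorphism between two members of the family -/
def uu (F φ F' : Fm A (Mn n)) : Fm A (Mn n) := fun i w => F i w * φ i w * (F' i w)⁻¹ - 1

theorem uu_sec {s s' F F' φ : Fm A (Mn n)} (hF : ∀ i, Fr A.R (s i) (F i))
    (hF' : ∀ i, Fr A.R (s' i) (F' i)) (h : BIso A (fc A F' g0) (fc A F g0) φ) :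
    ESec A g0 (fun _ _ _ => 1) (uu F φ F') ∧ WD A (uu F φ F') fun i w =>
      s' i w + uu F φ F' i w * s' i w - (s i w + s i w * uu F φ F' i w) := by
  refine ⟨fun i j w e => mat_law ((hF i).ne e.1) ((hF' j).ne (tr_ball e)) (h.law i j w e),
    fun i z e => ((((((hF i).wa e).mul (wa_an (Hl.an h.hol e i))).mul ((hF' i).wa_inv e)).sub
      (wa_const 1))).congr EventuallyEq.rfl (Eventually.of_forall fun w => ?_)⟩
  simp only [uu]
  noncomm_ring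

namespace Kd

variable {hg : A.Cc g0} (D : Kd hg)

/-- the holomorphic endomorphism attached to a solution -/
def ga (s s' : Cv D.k) (u : XS A g0) : XS A g0 :=
  u + D.K.S (D.E s + mulL hg (D.E s) u - (D.E s' + mulR hg u (D.E s')))

theorem uni_sec {s s' : Cv D.k} (hs : s ∈ D.W) (hs' : s' ∈ D.W) {φ : Fm A (Mn n)}
    (h : BIso (A.res D.r D.h1 D.h2) (fc A (D.F s') g0) (fc A (D.F s) g0) φ) : ∃ u : XS A g0,
      (∀ i, ∀ w ∈ ball (0 : ℂ) D.r, Sct.fm A u i w = D.F s i w * φ i w * (D.F s' i w)⁻¹ - 1) ∧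
      Eqn (mulL hg) (mulR hg) D.K.S D.K.π (D.E s, D.ga s s' u) (u, D.E s') ∧
      A.Hl (Sct.fm A (D.ga s s' u)) := by
  obtain ⟨a, b⟩ := uu_sec (A := A.res D.r D.h1 D.h2) (D.fr s hs) (D.fr s' hs') h
  have e := fun i z c => fm_mk_res (i := i) (z := z) (rc_adC hg)
    (fun i z c => (b i z c).ct.continuousWithinAt)
    ((esec_sv (A := A.res D.r D.h1 D.h2) hg.res).1 a) c
  refine ⟨_, e, D.K.eqn_of (fix_of D.K.ππ D.com D.EQ D.QE s') (wd_fm (cc_adC hg) fun i z x => ?_)⟩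
  have x' := mem_ball_zero_iff.2 (x.trans D.h1)
  refine (b i z x').congr ?_ ?_ <;> filter_upwards [isOpen_ball.mem_nhds x'] with w y
  · exact e i w y
  · have y' := ball_subset_ball D.h2 y
    rw [fm_sub, fm_add, fm_add, fm_mulL hg _ _ y', fm_mulR hg _ _ y', e i w y]

theorem ev_ga {M : Set (Cv D.m × Cv D.k)} (hM : M ∈ 𝓝 0) : ∃ η : ℝ, 0 < η ∧ ∀ u s s', ‖u‖ < η →
    ‖s‖ < η → ‖s'‖ < η → (D.Q' (D.ga s s' u), s) ∈ M ∧
      (Eqn (mulL hg) (mulR hg) D.K.S D.K.π (D.E s, D.ga s s' u) (u, D.E s') →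
        D.sol (D.E s, D.ga s s' u) = (u, D.E s')) := by
  obtain ⟨η, η0, hη⟩ := Metric.eventually_nhds_iff.1 (ev_uni D.E D.Q' D.uni hM)
  exact ⟨η, η0, fun u s s' a b c => hη (y := (u, s, s'))
    ((dist_zero_right _).trans_lt (max_lt a (max_lt b c)))⟩

theorem ev_mat {η : ℝ} (h : 0 < η) : ∃ ρ : ℝ, 0 < ρ ∧ ∀ X Y Z : Mn n, ‖X - 1‖ < ρ → ‖Y - 1‖ < ρ →
    ‖Z - 1‖ < ρ → ‖X * Y * Z⁻¹ - 1‖ < η := by
  have c : ContinuousAt (fun x : Mn n × Mn n × Mn n => x.1 * x.2.1 * x.2.2⁻¹) (1, 1, 1) :=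
    (continuousAt_fst.mul continuousAt_snd.fst).mul ((P281Z.Hm.an_inv (𝕜 := ℂ) (E := Mn n) (z := 1)
      analyticAt_id (by simp)).continuousAt.comp_of_eq continuousAt_snd.snd rfl)
  obtain ⟨ρ, ρ0, hρ⟩ := Metric.eventually_nhds_iff.1 (c.eventually (ball_mem_nhds _ h))
  refine ⟨ρ, ρ0, fun X Y Z a b d => ?_⟩
  have := hρ (y := (X, Y, Z)) (max_lt (mem_ball_iff_norm.2 a) (max_lt (mem_ball_iff_norm.2 b)
    (mem_ball_iff_norm.2 d)))
  simpa only [dist_eq_norm, inv_one, Matrix.mul_one] using this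

theorem ev_F {ρ : ℝ} (h : 0 < ρ) : ∃ σ : ℝ, 0 < σ ∧ ∀ s, ‖s‖ < σ → s ∈ D.W ∧
    ∀ i w, ‖w‖ ≤ 1 → ‖D.F s i w - 1‖ < ρ := by
  obtain ⟨σ, σ0, hσ⟩ := Metric.eventually_nhds_iff.1 ((ev_unit (O := ball (1 : Mn n) ρ) D.h1
    (D.op.mem_nhds D.zero) D.Fc isOpen_ball fun i w a => by
      simp only [D.F0 i w (mem_ball_zero_iff.2 (a.trans_lt D.h1)), mem_ball_self h]).and
    (D.op.mem_nhds D.zero))
  exact ⟨σ, σ0, fun s a => have b := hσ (y := s) ((dist_zero_right _).trans_lt a)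
    ⟨b.2, fun i w c => mem_ball_iff_norm.1 (b.1 i w c)⟩⟩

/-- uniqueness in the local groupoid -/
theorem uniq {M : Set (Cv D.m × Cv D.k)} (hM : M ∈ 𝓝 0) :
    ∃ δ : ℝ, 0 < δ ∧ ∀ (s s' : Cv D.k) (φ : Fm A (Mn n)), ‖s‖ < δ → ‖s'‖ < δ →
      BIso (A.res D.r D.h1 D.h2) (fc A (D.F s') g0) (fc A (D.F s) g0) φ →
      (∀ i w, ‖w‖ ≤ 1 → ‖φ i w - 1‖ < δ) → ∃ γ u, (γ, s) ∈ M ∧ s ∈ D.W ∧ s' ∈ D.W ∧
        D.sol (D.E s, D.E' γ) = (u, D.E s') ∧ ∀ i, ∀ w ∈ ball (0 : ℂ) D.r,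
          (D.F s i w)⁻¹ * (1 + Sct.fm A u i w) * D.F s' i w = φ i w := by
  obtain ⟨η, η0, hη⟩ := D.ev_ga hM
  obtain ⟨ρ, ρ0, hρ⟩ := ev_mat (n := n) (half_pos η0)
  obtain ⟨σ, σ0, hσ⟩ := D.ev_F ρ0
  refine ⟨min η (min ρ σ), by positivity, fun s s' φ a b hφ d => ?_⟩
  simp only [lt_min_iff] at a b d
  obtain ⟨a2, a1⟩ := hσ s a.2.2
  obtain ⟨b2, b1⟩ := hσ s' b.2.2
  obtain ⟨u, e, p, q⟩ := D.uni_sec a2 b2 hφ
  have nu : ‖u‖ ≤ η / 2 := norm_le (rc_adC hg) u (half_pos η0).le fun i w x => by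
    rw [e i w (mem_ball_zero_iff.2 (x.trans_lt D.h1))]
    exact (hρ _ _ _ (a1 i w x) (d i w x).2.1 (b1 i w x)).le
  obtain ⟨p', q'⟩ := hη u s s' (nu.trans_lt (half_lt_self η0)) a.1 b.1
  refine ⟨_, u, p', a2, b2, ?_, fun i w x => ?_⟩
  · rw [D.EQ' _ q]; exact q' p
  · rw [e i w x, add_sub_cancel, Matrix.mul_assoc,
      nonsing_inv_mul_cancel_right _ _ ((D.fr s' b2 i).ne x).isUnit,
      nonsing_inv_mul_cancel_left _ _ ((D.fr s a2 i).ne x).isUnit]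

end Kd

end Vale.Agent.P275KI
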