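import Vale.Agent.P275KI.Vb
import Vale.Agent.P275KI.Uni
import Vale.Agent.P275RR.Dol

/-!
# P275, block KI: the Kuranishi family of a bundle exists
-/

set_option linter.unusedSectionVars false

open scoped Topology ComplexConjugate ContDiff Matrix.Norms.Operator
open Filter Set Complex Metric Matrix
open Vale.Agent.P275GC Vale.Agent.P275GC.At
open Vale.Agent.P275NA (Fm Cy Mn db dz fc)
open Vale.Agent.P275RR (Rc SV rc_of)
open Vale.Agent.P275MO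

noncomputable section

namespace Vale.Agent.P275KI

variable {C : Type} [TopologicalSpace C] {A : At C} {n : ℕ} {l : Cy A ℂ} {g0 : Cy A (Mn n)}

namespace Kd

variable {hg : A.Cc g0} (D : Kd hg)

theorem ks (f : Fm A (Mn n)) (f1 : A.Sm ∞ f) (f2 : ESec A g0 (fun i j w => conj (A.d i j w)) f)
    (f3 : ∀ i, ∀ w ∈ ball (0 : ℂ) A.R, (f i w).trace = 0) : ∃ (s : Cv D.k) (v : Fm A (Mn n)),
      A.Sm ∞ v ∧ ESec A g0 (fun _ _ _ => 1) v ∧
        ∀ i, ∀ w ∈ ball (0 : ℂ) A.R, f i w = Sct.fm A (D.E s) i w + db (v i) w := by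
  obtain ⟨y, e⟩ : ∃ y : YS A g0, ∀ i, ∀ z ∈ ball (0 : ℂ) A.R, Sct.fm A y i z = f i z :=
    ⟨_, fun i z a => fm_mk_of (rc_adB hg) f1.ct ((esec_svb hg).1 f2) a⟩
  have t : tfY hg y = y := sct_ext (rc_adB hg) fun i z a => by
    rw [fm_tfY hg _ (mem_of_le a), e i z (mem_of_le a), tf_of (f3 i z (mem_of_le a))]
  have p : D.E (D.Q y) = D.K.π y := by rw [D.EQ, ← D.com, t]
  obtain ⟨c, d⟩ := (D.K.wd y).sm (k := ⊤) le_top fun i =>
    ((f1 i).sub (D.K.sm y i)).congr fun z a => by rw [fm_sub, e i z a]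
  refine ⟨D.Q y, _, c, (esec_sv hg).2 (fm_sv (rc_adC hg) _), fun i w a => ?_⟩
  rw [d i w a, fm_sub, e i w a, p, add_sub_cancel]

theorem dF (i : Fin A.N) {w : ℂ} (a : w ∈ ball (0 : ℂ) D.r) :
    DifferentiableOn ℂ (fun s => (D.F s i w)⁻¹) D.W :=
  df_inv (D.Fh i w a) fun s b => (D.fr s b i).ne a

theorem hfc (hb : Bun A l g0) (i j : Fin A.N) :
    DifferentiableOn ℂ (fun p : Cv D.k × ℂ => fc A (D.F p.1) g0 i j p.2)
      (D.W ×ˢ (A.res D.r D.h1 D.h2).O i j) := by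
  have o := O_open (A := A.res D.r D.h1 D.h2) i j
  have c1 : ContinuousOn (fun p : Cv D.k × ℂ => (D.F p.1 i p.2)⁻¹)
      (D.W ×ˢ (A.res D.r D.h1 D.h2).O i j) :=
    (D.cinv i).mono (prod_mono_right fun _ a => (res_O.1 a).2.1)
  have c2 : ContinuousOn (fun p : Cv D.k × ℂ => g0 i j p.2) (D.W ×ˢ (A.res D.r D.h1 D.h2).O i j) :=
    (hg.hol i j).continuousOn.comp continuousOn_snd fun _ a => (res_O.1 a.2).1
  have c3 : ContinuousOn (fun p : Cv D.k × ℂ => D.F p.1 j (A.tr i j p.2))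
      (D.W ×ˢ (A.res D.r D.h1 D.h2).O i j) :=
    (D.Fc j).comp (f := fun p : Cv D.k × ℂ => (p.1, A.tr i j p.2)) (continuousOn_fst.prodMk
      ((A.hol i j).continuousOn.comp continuousOn_snd fun _ a => (res_O.1 a.2).1))
      fun _ a => mk_mem_prod a.1 (res_O.1 a.2).2.2
  refine osg_prod (D.op.prod o) ((c1.mul c2).mul c3) (fun p a => ?_) fun p a => ?_
  · have := ((D.dF i (res_O.1 a.2).2.1).mul_const (g0 i j p.2)).mul (D.Fh j _ (res_O.1 a.2).2.2)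
    exact this.differentiableAt (D.op.mem_nhds a.1)
  · have := (D.bun (h1 := D.h1) (h2 := D.h2) hb le_rfl a.1).cc.hol i j
    exact this.differentiableAt (o.mem_nhds a.2)

theorem vc [T2Space C] (hb : Bun A l g0) {s : Cv D.k} (hs : s ∈ D.W) {T : Type}
    [TopologicalSpace T] {g : T → Cy A (Mn n)} {V : Set T} {t0 : T} {r : ℝ} {h1 : 1 < r}
    {h2 : r ≤ A.R} (hr : r ≤ D.r) (hV : V ∈ 𝓝 t0) (hB : ∀ t ∈ V, Bun (A.res r h1 h2) l (g t))
    (hc : ∀ i j, ContinuousOn (fun p : T × ℂ => g p.1 i j p.2) (V ×ˢ (A.res r h1 h2).O i j))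
    (e : ∀ i j, ∀ w ∈ (A.res r h1 h2).O i j, g t0 i j w = fc A (D.F s) g0 i j w) :
    ∃ V' ∈ 𝓝 t0, ∃ (σ : T → Cv D.k) (Φ : T → Fm A (Mn n)), V' ⊆ V ∧ ContinuousOn σ V' ∧
      σ t0 = s ∧ (∀ i, ContinuousOn (fun p : T × ℂ => Φ p.1 i p.2) (V' ×ˢ ball 0 r)) ∧
      (∀ i, ∀ w ∈ ball (0 : ℂ) r, Φ t0 i w = 1) ∧
      ∀ t ∈ V', σ t ∈ D.W ∧ BIso (A.res r h1 h2) (fc A (D.F (σ t)) g0) (g t) (Φ t) := by
  obtain ⟨V', v1, v2, v3, v4, v5, v6, v7⟩ := D.fh_th hb hr hs hV hB hc e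
  have c1 := D.csa v4 fun t a => (v7 t a).1
  have c2 := D.cPH hr v4 (fun t a => (v7 t a).1) fun t a => (v7 t a).2.1
  exact ⟨V', v1.mem_nhds v2, fun t => D.sa (D.th h1 h2 s (g t)) 0,
    fun t => D.PH (D.th h1 h2 s (g t)) 0, v3, c1, v5, c2, v6, fun t a => (v7 t a).2⟩

theorem vh [T2Space C] (hb : Bun A l g0) {s : Cv D.k} (hs : s ∈ D.W) {T : Type}
    [NormedAddCommGroup T] [NormedSpace ℂ T] [FiniteDimensional ℂ T]
    {g : T → Cy A (Mn n)} {V : Set T} {t0 : T} {r : ℝ} {h1 : 1 < r}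
    {h2 : r ≤ A.R} (hr : r ≤ D.r) (hV : V ∈ 𝓝 t0) (hB : ∀ t ∈ V, Bun (A.res r h1 h2) l (g t))
    (hc : ∀ i j, DifferentiableOn ℂ (fun p : T × ℂ => g p.1 i j p.2)
      (V ×ˢ (A.res r h1 h2).O i j))
    (e : ∀ i j, ∀ w ∈ (A.res r h1 h2).O i j, g t0 i j w = fc A (D.F s) g0 i j w) :
    ∃ (V' : Set T) (σ : T → Cv D.k) (Φ : T → Fm A (Mn n)), IsOpen V' ∧ t0 ∈ V' ∧ V' ⊆ V ∧
      DifferentiableOn ℂ σ V' ∧ σ t0 = s ∧
      (∀ i, DifferentiableOn ℂ (fun p : T × ℂ => Φ p.1 i p.2) (V' ×ˢ ball 0 r)) ∧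
      (∀ i, ∀ w ∈ ball (0 : ℂ) r, Φ t0 i w = 1) ∧
      ∀ t ∈ V', σ t ∈ D.W ∧ BIso (A.res r h1 h2) (fc A (D.F (σ t)) g0) (g t) (Φ t) := by
  obtain ⟨V', v1, v2, v3, v4, v5, v6, v7⟩ :=
    D.fh_th hb hr hs hV hB (fun i j => (hc i j).continuousOn) e
  have hc' := fun i j => (hc i j).mono (prod_mono_left v3)
  have d0 := fun i z a => df_cmb (A := A.res r h1 h2) (i := i) (z := z) (g1 := fc A (D.F s) g0)
    (fun k i z => ev_pC) hc' a
  have d1 := fun i z a => df_cmb (A := A.res r h1 h2) (i := i) (z := z) (g1 := fc A (D.F s) g0)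
    (fun k i z => ev_dpC) hc' a
  obtain ⟨b1, b2⟩ := D.famh hr v4 v1 (fun t a => (v7 t a).1) (fun t a => (v7 t a).2.1)
    (fun t a => (v7 t a).2.2.hol) (fun i w a => (d0 i w a).mul_const _)
    (fun i w a => (((d1 i w a).mul_const _).add ((d0 i w a).mul_const _)).congr fun t b =>
      (D.db_th hb hr hs (hB t (v3 b)).cc i a).2) (differentiableOn_const _)
  exact ⟨V', fun t => D.sa (D.th h1 h2 s (g t)) 0, fun t => D.PH (D.th h1 h2 s (g t)) 0,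
    v1, v2, v3, b1, v5, b2, v6, fun t a => (v7 t a).2⟩

/-- the source map of the local groupoid -/
def gs (p : Cv D.m × Cv D.k) : Cv D.k := D.sa (fun i w => (D.F p.2 i w)⁻¹) (D.E' p.1)

/-- the isomorphisms of the local groupoid -/
def gP (p : Cv D.m × Cv D.k) : Fm A (Mn n) := D.PH (fun i w => (D.F p.2 i w)⁻¹) (D.E' p.1)

theorem ae (hb : Bun A l g0) {s : Cv D.k} (hs : s ∈ D.W) :
    al g0 (fun i w => (D.F s i w)⁻¹) = D.E s :=
  D.al_eq le_rfl hs (D.adm_inv (h1 := D.h1) (h2 := D.h2) hb le_rfl hs) fun _ _ _ => rfl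

theorem g_of (hb : Bun A l g0) {s s' : Cv D.k} {γ : Cv D.m} {u : XS A g0} (hs : s ∈ D.W)
    (h : D.sol (D.E s, D.E' γ) = (u, D.E s')) : D.gs (γ, s) = s' ∧ ∀ i w,
      D.gP (γ, s) i w = (D.F s i w)⁻¹ * (1 + Sct.fm A u i w) * D.F s' i w := by
  have e : D.gs (γ, s) = s' := by rw [gs, sa, D.ae hb hs, h, D.QE]
  refine ⟨e, fun i w => ?_⟩
  rw [← e, gP, PH, MM, D.ae hb hs, h]
  rfl

theorem g_id (hb : Bun A l g0) {s : Cv D.k} (hs : s ∈ D.W) :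
    D.gs (0, s) = s ∧ ∀ i, ∀ w ∈ ball (0 : ℂ) D.r, D.gP (0, s) i w = 1 := by
  obtain ⟨a, b⟩ := D.g_of (γ := 0) (u := 0) hb hs (by rw [D.E'.map_zero]; exact (D.WN s hs).2)
  exact ⟨a, fun i w c => by
    rw [b, fm_zero, add_zero, Matrix.mul_one, nonsing_inv_mul _ ((D.fr s hs i).ne c).isUnit]⟩

theorem g_lin (hb : Bun A l g0) {γ : Cv D.m} (h : D.sol (0, D.E' γ) = (D.E' γ, 0)) :
    D.gs (γ, 0) = 0 ∧ ∀ i, ∀ w ∈ ball (0 : ℂ) D.r,
      D.gP (γ, 0) i w = 1 + Sct.fm A (D.E' γ) i w := by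
  obtain ⟨a, b⟩ := D.g_of (s' := 0) (γ := γ) (u := D.E' γ) hb D.zero (by rw [D.E.map_zero]; exact h)
  exact ⟨a, fun i w c => by rw [b, D.F0 i w c, inv_one, Matrix.one_mul, Matrix.mul_one]⟩

theorem grp (hb : Bun A l g0) : ∃ U : Set (Cv D.m × Cv D.k), IsOpen U ∧ 0 ∈ U ∧
    DifferentiableOn ℂ D.gs U ∧ (∀ i, DifferentiableOn ℂ
      (fun p : (Cv D.m × Cv D.k) × ℂ => D.gP p.1 i p.2) (U ×ˢ ball 0 D.r)) ∧
    ∀ p ∈ U, (p.2 ∈ D.W ∧ D.gs p ∈ D.W ∧ BIso (A.res D.r D.h1 D.h2) (fc A (D.F (D.gs p)) g0)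
      (fc A (D.F p.2) g0) (D.gP p)) ∧ D.sol (0, D.E' p.1) = (D.E' p.1, 0) := by
  have fh := D.fh_inv hb
  have m : {p : Cv D.m × Cv D.k | p.2 ∈ D.W} ∈ 𝓝 0 :=
    continuous_snd.continuousAt.eventually (D.op.mem_nhds D.zero)
  obtain ⟨b1, b2, b3⟩ := D.base le_rfl D.zero
    (D.adm_inv (h1 := D.h1) (h2 := D.h2) hb le_rfl D.zero) fun _ _ _ => rfl
  rw [← D.E'.map_zero] at b1 b2 b3
  obtain ⟨U, u1, u2, u3⟩ := _root_.eventually_nhds_iff.1 ((D.fam hb le_rfl fh m b1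
    (b2.symm ▸ D.zero) fun i w a => (b3 i w (mem_ball_zero_iff.2 (a.trans_lt D.h1))).1).and
    (continuous_fst.continuousAt.eventually (ev_lin D.E' D.uni)))
  have dF' : ∀ i, ∀ w ∈ ball (0 : ℂ) D.r,
      DifferentiableOn ℂ (fun p : Cv D.m × Cv D.k => (D.F p.2 i w)⁻¹) U := fun i w a =>
    (D.dF i a).comp differentiableOn_snd fun p b => (u1 p b).1.1
  obtain ⟨q1, q2⟩ := D.famh le_rfl (fh.mono fun p a => (u1 p a).1.1) u2 (fun p a => (u1 p a).1.2.1)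
    (fun p a => (u1 p a).1.2.2.1) (fun p a => (u1 p a).1.2.2.2.hol) dF'
    (fun i w a => ((dF' i w a).mul fun p _ => (df_fm (D.E.differentiableAt.comp p
      differentiableAt_snd) i w).differentiableWithinAt).congr fun p b =>
        (D.fr _ (u1 p b).1.1 i).db_inv a)
    (D.E'.differentiable.comp differentiable_fst).differentiableOn
  exact ⟨U, u2, u3, q1, q2, fun p a => ⟨⟨(u1 p a).1.1, (u1 p a).1.2.2⟩, (u1 p a).2⟩⟩

end Kd

/-- **the Kuranishi family of a bundle** -/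
theorem vb' [T2Space C] (hn : n ≠ 0) : VB n A l := fun g0 i0 ξ0 ε hb h0 h1 => by
  obtain ⟨D, van⟩ := exists_kd hn (P275RR.dol A) hb.cc i0 h0 h1
  have hg := hb.cc
  obtain ⟨U, u1, u2, u3, u4, u5⟩ := D.grp hb
  refine ⟨{ k := D.k, m := D.m, r := D.r, h1 := D.h1, h2 := D.h2, sf := fmL _ ∘ₗ D.E.toLinearMap
            sm := ?_, law := D.esE, tr := ?_, van := ?_, ks := D.ks, W := D.W, op := D.op
            zero := D.zero, F := D.F, F0 := D.F0, Fs := fun s a i => (D.fr s a i).1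
            Fd := fun s a i => (D.fr s a i).2, Fc := D.Fc, Pc := D.Pc, Fh := D.Fh, Ph := D.Ph
            bun := fun s => D.bun hb le_rfl, hg := D.hfc hb, vc := ?_, vh := ?_
            gf := fmL _ ∘ₗ D.E'.toLinearMap, ghol := D.hol, glaw := ?_, ginj := ?_, U := U
            opU := u1, zeroU := u2, sa := D.gs, Φ := D.gP, hsa := u3, hΦ := u4
            iso := fun p a => (u5 p a).1, id := fun s a => D.g_id hb (u5 _ a).1.1
            lin := fun γ a => D.g_lin hb (u5 _ a).2, uni := fun N hN => ?_ }⟩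
  · exact fun s i => (sm_tf (D.K.sm _) i).congr fun _ => D.eE s
  · exact fun s i w a => (congrArg trace (D.eE s a)).trans (trace_tf hn _)
  · intro s w a
    have := norm_le_norm_add_norm_sub' w ξ0
    have := mem_ball_iff_norm.1 a
    refine (D.eE s (mem_of_le (by linarith))).trans ?_
    rw [van _ w a, tf_of (trace_zero _ _)]
  · exact fun s hs T _ g V t0 r a1 a2 => D.vc hb hs a2
  · exact fun s hs T _ _ _ g V t0 r a1 a2 => D.vh hb hs a2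
  · exact fun γ => (esec_sv hg).2 (fm_sv (rc_adC hg) (D.E' γ))
  · intro γ a
    have e : D.E' γ = 0 := sct_ext (rc_adC hg) fun i z b =>
      (a i z (mem_of_le b)).trans fm_zero.symm
    rw [← D.QE' γ, e, D.Q'.map_zero]
  · obtain ⟨δ, δ0, h⟩ := D.uniq (inter_mem (u1.mem_nhds u2)
      (continuous_fst.continuousAt.preimage_mem_nhds hN))
    refine ⟨δ, δ0, fun s s' φ a b c d => ?_⟩
    obtain ⟨γ, u, p1, p2, -, p4, p5⟩ := h s s' φ a b c d
    obtain ⟨e1, e2⟩ := D.g_of hb p2 p4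
    exact ⟨γ, p1.2, p1.1, e1, fun i w x => (e2 i w).trans (p5 i w x)⟩

theorem vb {d : ℤ} (hS : Std A l n d) : VB n A l :=
  have := hS.t2
  vb' (by have := hS.two; omega)

end Vale.Agent.P275KI
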