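import Vale.Agent.P275KI.Sv
import Vale.Agent.P275MO.CDefs

/-!
# P275, block KI: sections of the bundle of endomorphisms
-/

set_option linter.unusedSectionVars false

open scoped Topology ComplexConjugate ContDiff Matrix.Norms.Operator
open Filter Set Complex Metric Matrix
open Vale.Agent.P281Z.Hm (an_det an_inv fderiv_det fderiv_hol wb_minv)
open Vale.Agent.P275GC Vale.Agent.P275GC.At
open Vale.Agent.P275NA (Fm Cy Mn db fc)
open Vale.Agent.P275RR (Rc SV rc_of)
open Vale.Agent.P275MO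

noncomputable section

namespace Vale.Agent.P275KI

variable {C : Type} [TopologicalSpace C] {A : At C} {n : ℕ} {g g' : Cy A (Mn n)}
  {i j : Fin A.N} {z : ℂ}

instance cplMn : CompleteSpace (Mn n) := FiniteDimensional.complete ℂ (Mn n)

theorem adC_apply (X : Mn n) : adC A g i j z X = g i j z * X * g j i (A.tr i j z) := rfl

theorem cc_adC (hg : A.Cc g) : A.Cc (adC A g) where
  hol i j := ((ContinuousLinearMap.mulLeftRight ℂ (Mn n)).differentiable.comp_differentiableOn
    (hg.hol i j)).clm_apply ((hg.hol j i).comp (A.hol i j) fun _ h => tr_mem h)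
  one i z h := ContinuousLinearMap.ext fun X => by
    rw [adC_apply, tr_self h, hg.one i z h, Matrix.one_mul, Matrix.mul_one, one_apply_eq_self]
  mul i j k z h h' := ContinuousLinearMap.ext fun X => by
    rw [mul_apply_eq_comp, adC_apply, adC_apply, adC_apply, tr_tr h, hg.mul i j k z h h',
      hg.mul k j i _ (tr_tr (k := k) h ▸ tr_mem (tr_O h h')) (tr_mem h'), tr_tr h']
    simp only [Matrix.mul_assoc]

theorem rc_adC (hg : A.Cc g) : Rc A (adC A g) := rc_of (cc_adC hg)

theorem rc_adB (hg : A.Cc g) : Rc A (bar A (adC A g)) := rc_bar (rc_adC hg)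

theorem esec_iff (hg : A.Cc g) {m : Cy A ℂ} {u : Fm A (Mn n)} : ESec A g m u ↔
    ∀ i j, ∀ w ∈ A.O i j, u i w = m i j w • adC A g i j w (u j (A.tr i j w)) := by
  refine forall₄_congr fun i j w h => ⟨fun a => ?_, fun a => ?_⟩
  · rw [adC_apply, ← Matrix.smul_mul, ← a, Matrix.mul_assoc, hg.inv h, Matrix.mul_one]
  · rw [a, adC_apply, Matrix.smul_mul, Matrix.mul_assoc, hg.inv' h, Matrix.mul_one]

theorem esec_sv (hg : A.Cc g) {u : Fm A (Mn n)} :
    ESec A g (fun _ _ _ => 1) u ↔ SV A (adC A g) u := by simp only [esec_iff hg, one_smul, SV]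

theorem esec_svb (hg : A.Cc g) {u : Fm A (Mn n)} :
    ESec A g (fun i j w => conj (A.d i j w)) u ↔ SV A (bar A (adC A g)) u := esec_iff hg

theorem adC_mul (hg : A.Cc g) (h : z ∈ A.O i j) (X Y : Mn n) :
    adC A g i j z X * adC A g i j z Y = adC A g i j z (X * Y) := by
  simp only [adC_apply, Matrix.mul_assoc]
  rw [← Matrix.mul_assoc (g j i _), hg.inv' h, Matrix.one_mul]

theorem adC_one (hg : A.Cc g) (h : z ∈ A.O i j) : adC A g i j z 1 = 1 := by
  rw [adC_apply, Matrix.mul_one, hg.inv h]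

theorem adC_trace (hg : A.Cc g) (h : z ∈ A.O i j) (X : Mn n) :
    (adC A g i j z X).trace = X.trace := by
  rw [adC_apply, trace_mul_cycle, hg.inv' h, Matrix.one_mul]

/-- multiplication of matrices -/
def mulM (n : ℕ) : CL (Mn n) (CL (Mn n) (Mn n)) := ContinuousLinearMap.mul ℂ (Mn n)

theorem mulM_apply (X Y : Mn n) : mulM n X Y = X * Y := rfl

/-- forms times sections -/
def mulL (hg : A.Cc g) : Sct A (bar A (adC A g)) →L[ℂ] Sct A (adC A g) →L[ℂ]
    Sct A (bar A (adC A g)) := bil (mulM n) fun i j z h x y => by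
  simp only [bar_apply, mulM_apply, Matrix.smul_mul, adC_mul hg h]

/-- sections times forms -/
def mulR (hg : A.Cc g) : Sct A (adC A g) →L[ℂ] Sct A (bar A (adC A g)) →L[ℂ]
    Sct A (bar A (adC A g)) := bil (mulM n) fun i j z h x y => by
  simp only [bar_apply, mulM_apply, Matrix.mul_smul, adC_mul hg h]

theorem fm_mulL (hg : A.Cc g) (a : Sct A (bar A (adC A g))) (u : Sct A (adC A g))
    (h : z ∈ ball (0 : ℂ) A.R) : Sct.fm A (mulL hg a u) i z = Sct.fm A a i z * Sct.fm A u i z :=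
  fm_bil _ _ a u h

theorem fm_mulR (hg : A.Cc g) (u : Sct A (adC A g)) (a : Sct A (bar A (adC A g)))
    (h : z ∈ ball (0 : ℂ) A.R) : Sct.fm A (mulR hg u a) i z = Sct.fm A u i z * Sct.fm A a i z :=
  fm_bil _ _ u a h

/-- the trace free part -/
def tfL (n : ℕ) : CL (Mn n) (Mn n) := LinearMap.toContinuousLinearMap
  (LinearMap.id - ((n : ℂ)⁻¹ • Matrix.traceLinearMap (Fin n) ℂ ℂ).smulRight (1 : Mn n))

theorem tfL_apply (X : Mn n) : tfL n X = tf X := rfl

theorem trace_tf (hn : n ≠ 0) (X : Mn n) : (tf X).trace = 0 := by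
  have : (n : ℂ) ≠ 0 := Nat.cast_ne_zero.2 hn
  simp only [tf, trace_sub, trace_smul, trace_one, Fintype.card_fin, smul_eq_mul]
  field_simp
  ring

theorem tf_of {X : Mn n} (h : X.trace = 0) : tf X = X := by rw [tf, h, mul_zero, zero_smul, sub_zero]

theorem tf_adC (hg : A.Cc g) : ∀ i j, ∀ z ∈ A.O i j, ∀ x,
    tfL n (adC A g i j z x) = adC A g i j z (tfL n x) := fun i j z h x => by
  simp only [tfL_apply, tf, map_sub, map_smul, adC_one hg h, adC_trace hg h]

/-- the trace free part of a form -/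
def tfY (hg : A.Cc g) : Sct A (bar A (adC A g)) →L[ℂ] Sct A (bar A (adC A g)) :=
  lin (tfL n) (com_bar (tfL n) (tf_adC hg))

theorem fm_tfY (hg : A.Cc g) (a : Sct A (bar A (adC A g))) (h : z ∈ ball (0 : ℂ) A.R) :
    Sct.fm A (tfY hg a) i z = tf (Sct.fm A a i z) := fm_lin _ _ a h

section wa
variable {u f v h : ℂ → Mn n}

theorem WA.mul (a : WA u f z) (b : WA v h z) :
    WA (fun w => u w * v w) (fun w => f w * v w + u w * h w) z := a.bil (mulM n) b

theorem WA.det (a : WA u (fun w => u w * f w) z) (h0 : (u z).det ≠ 0) :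
    WA (fun w => (u w).det) (fun w => (u w).det * (f w).trace) z := by
  have d : ∀ X : Mn n, AnalyticAt ℂ (fun X : Mn n => X.det) X := fun X =>
    an_det (𝕜 := ℂ) (f := id) analyticAt_id
  refine (a.hol_comp (d _).contDiffAt).congr EventuallyEq.rfl ?_
  filter_upwards [((d _).continuousAt.comp a.ct).eventually_ne h0] with w hw
  have := fderiv_det (f := fun X : Mn n => X) (z := u w) differentiableAt_id hw (u w * f w)
  have e : fderiv ℝ (fun X : Mn n => X) (u w) (u w * f w) = u w * f w :=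
    congrArg (fun L : Mn n →L[ℝ] Mn n => L (u w * f w)) (hasFDerivAt_id (u w)).fderiv
  rw [fderiv_hol (d _).differentiableAt] at this
  erw [e] at this
  rw [nonsing_inv_mul_cancel_left _ _ (Ne.isUnit hw)] at this
  exact this.symm

theorem cd_inv {E : Type} [NormedAddCommGroup E] [NormedSpace ℝ E] {u : E → Mn n} {z : E}
    {k : WithTop ℕ∞} (a : ContDiffAt ℝ k u z) (h0 : (u z).det ≠ 0) :
    ContDiffAt ℝ k (fun x => (u x)⁻¹) z :=
  (an_inv (𝕜 := ℝ) (E := Mn n) (z := u z) analyticAt_id h0).contDiffAt.comp z a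

theorem ca_inv {T : Type} [TopologicalSpace T] {u : T → Mn n} {s : Set T} (a : ContinuousOn u s)
    (h0 : ∀ t ∈ s, (u t).det ≠ 0) : ContinuousOn (fun x => (u x)⁻¹) s := fun t ht =>
  (an_inv (𝕜 := ℂ) (E := Mn n) (z := u t) analyticAt_id (h0 t ht)).continuousAt.comp_continuousWithinAt
    (a t ht)

theorem df_inv {E : Type} [NormedAddCommGroup E] [NormedSpace ℂ E] {u : E → Mn n} {s : Set E}
    (a : DifferentiableOn ℂ u s) (h0 : ∀ t ∈ s, (u t).det ≠ 0) :
    DifferentiableOn ℂ (fun x => (u x)⁻¹) s := fun t ht =>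
  (an_inv (𝕜 := ℂ) (E := Mn n) (z := u t) analyticAt_id
    (h0 t ht)).differentiableAt.comp_differentiableWithinAt t (a t ht)

theorem cont_det : Continuous fun X : Mn n => X.det := continuous_iff_continuousAt.2 fun _ =>
  (an_det (𝕜 := ℂ) (f := id) analyticAt_id).continuousAt

end wa

/-- a frame of `db + s` on the disc of radius `r` -/
def Fr (r : ℝ) (s F : ℂ → Mn n) : Prop := ContDiffOn ℝ ∞ F (ball 0 r) ∧
  ∀ w ∈ ball (0 : ℂ) r, (F w).det = 1 ∧ db F w + s w * F w = 0

theorem Fr.at {r : ℝ} {s F : ℂ → Mn n} (h : Fr r s F) (a : z ∈ ball (0 : ℂ) r) :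
    ContDiffAt ℝ 1 F z := (h.1.contDiffAt (isOpen_ball.mem_nhds a)).of_le (by simp)

theorem Fr.ne {r : ℝ} {s F : ℂ → Mn n} (h : Fr r s F) (a : z ∈ ball (0 : ℂ) r) : (F z).det ≠ 0 := by
  rw [(h.2 z a).1]; exact one_ne_zero

theorem Fr.wa {r : ℝ} {s F : ℂ → Mn n} (h : Fr r s F) (a : z ∈ ball (0 : ℂ) r) :
    WA F (fun w => -(s w * F w)) z := (wa_cd (h.at a)).congr EventuallyEq.rfl
  (eventually_of_mem (isOpen_ball.mem_nhds a) fun w b =>
    (eq_neg_of_add_eq_zero_left (h.2 w b).2).symm)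

theorem Fr.db_inv {r : ℝ} {s F : ℂ → Mn n} (h : Fr r s F) (a : z ∈ ball (0 : ℂ) r) :
    db (fun w => (F w)⁻¹) z = (F z)⁻¹ * s z := by
  rw [db, wb_minv ((h.at a).differentiableAt one_ne_zero) (h.ne a),
    show P281Z.Hm.wb 1 F z = _ from eq_neg_of_add_eq_zero_left (h.2 z a).2, Matrix.mul_neg,
    Matrix.neg_mul, neg_neg, ← Matrix.mul_assoc, mul_nonsing_inv_cancel_right _ _ (h.ne a).isUnit]

theorem Fr.wa_inv {r : ℝ} {s F : ℂ → Mn n} (h : Fr r s F) (a : z ∈ ball (0 : ℂ) r) :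
    WA (fun w => (F w)⁻¹) (fun w => (F w)⁻¹ * s w) z :=
  (wa_cd (cd_inv (h.at a) (h.ne a))).congr EventuallyEq.rfl
    (eventually_of_mem (isOpen_ball.mem_nhds a) fun _ b => (h.db_inv b).symm)

theorem Fr.mono {r r' : ℝ} {s F : ℂ → Mn n} (h : Fr r s F) (a : r' ≤ r) : Fr r' s F :=
  ⟨h.1.mono (ball_subset_ball a), fun w b => h.2 w (ball_subset_ball a b)⟩

/-- the bundle given by the frames -/
theorem bun_fc {l : Cy A ℂ} {s F : Fm A (Mn n)} (hg : Bun A l g)
    (hs : ESec A g (fun i j w => conj (A.d i j w)) s) (hF : ∀ i, Fr A.R (s i) (F i)) :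
    Bun A l (fc A F g) where
  cc := ⟨fun i j z h => by
      refine ((((hF i).wa_inv h.1).mul (wa_an (hg.cc.an h))).mul
        (((hF j).wa (tr_ball h)).comp (an_tr h))).an ?_ |>.differentiableAt.differentiableWithinAt
      filter_upwards [O_nhds h] with w a
      rw [Matrix.mul_zero, add_zero, Matrix.mul_assoc _ (s i w), hs i j w a]
      simp only [Matrix.mul_smul, Matrix.smul_mul, Matrix.mul_assoc, smul_neg, Matrix.mul_neg, d,
        add_neg_cancel],
    fun i z h => by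
      rw [fc, tr_self h, hg.cc.one i z h, Matrix.mul_one, nonsing_inv_mul _ ((hF i).ne h).isUnit],
    fun i j k z h h' => by
      rw [fc, fc, fc, tr_tr h, hg.cc.mul i j k z h h']
      simp only [Matrix.mul_assoc, mul_nonsing_inv_cancel_left _ _ ((hF j).ne (tr_ball h)).isUnit]⟩
  det i j z h := by
    rw [fc, Matrix.det_mul, Matrix.det_mul, det_nonsing_inv, ((hF i).2 z h.1).1, ((hF j).2 _ (tr_ball h)).1,
      hg.det i j z h]
    simp

theorem Bun.res {l : Cy A ℂ} (hg : Bun A l g) {r : ℝ} {h1 : 1 < r} {h2 : r ≤ A.R} :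
    Bun (A.res r h1 h2) l g := ⟨hg.cc.res, fun i j z h => hg.det i j z (res_O.1 h).1⟩

theorem ESec.res {m : Cy A ℂ} {u : Fm A (Mn n)} (h : ESec A g m u) {r : ℝ} {h1 : 1 < r}
    {h2 : r ≤ A.R} : ESec (A.res r h1 h2) g m u := fun i j z a => h i j z (res_O.1 a).1

/-- the determinant of a map between bundles with the same determinant is a function -/
theorem fn_det {l : Cy A ℂ} {M : Fm A (Mn n)} (hg : Bun A l g) (hg' : Bun A l g')
    (h : ∀ i j, ∀ w ∈ A.O i j, M i w * g i j w = g' i j w * M j (A.tr i j w)) :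
    A.Fn fun i w => (M i w).det := fun i j w a => by
  have := congrArg det (h i j w a)
  rw [Matrix.det_mul, Matrix.det_mul, hg.det i j w a, hg'.det i j w a, mul_comm] at this
  exact mul_left_cancel₀ (hg.det i j w a ▸ hg.cc.det.ne a) this

theorem det_ne_of {l : Cy A ℂ} {M : Fm A (Mn n)} (hg : Bun A l g) (hg' : Bun A l g')
    (h : ∀ i j, ∀ w ∈ A.O i j, M i w * g i j w = g' i j w * M j (A.tr i j w))
    (h1 : ∀ i w, ‖w‖ ≤ 1 → ‖(M i w).det - 1‖ < 1) (a : z ∈ ball (0 : ℂ) A.R) :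
    (M i z).det ≠ 0 := fun e => by
  obtain ⟨j, b, c⟩ := ex_unit a i
  have := h1 j _ c.le
  rw [show (M j (A.tr i j z)).det = 0 from (fn_det hg hg' h i j z b).symm.trans e] at this
  simp at this

/-- a weak solution of `db M = M s` times a frame of `db + s` is an isomorphism -/
theorem biso_of {s F M : Fm A (Mn n)} (hF : ∀ i, Fr A.R (s i) (F i))
    (h : ∀ i j, ∀ w ∈ A.O i j, M i w * g i j w = g' i j w * M j (A.tr i j w))
    (h0 : ∀ i, ∀ w ∈ ball (0 : ℂ) A.R, (M i w).det ≠ 0)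
    (hM : WD A M fun i w => M i w * s i w) : BIso A (fc A F g) g' fun i w => M i w * F i w where
  hol i z a := (((hM i z a).mul ((hF i).wa a)).an (Eventually.of_forall fun w => by
    simp only [Matrix.mul_neg, Matrix.mul_assoc, add_neg_cancel])).differentiableAt.differentiableWithinAt
  det i z a := by rw [Matrix.det_mul]; exact mul_ne_zero (h0 i z a) ((hF i).ne a)
  law i j z a := by
    rw [fc, ← Matrix.mul_assoc, ← Matrix.mul_assoc,
      mul_nonsing_inv_cancel_right _ _ ((hF i).ne a.1).isUnit, h i j z a, Matrix.mul_assoc]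

end Vale.Agent.P275KI
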