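import Vale.Agent.P275KI.Key
import Vale.Agent.P275IN.Fam

/-!
# P275, block KI: existence of the data, and the smooth comparison of close cocycles
-/

set_option linter.unusedSectionVars false

open scoped Topology ComplexConjugate ContDiff Matrix.Norms.Operator BoundedContinuousFunction
open Filter Set Complex Metric Matrix
open Vale.Agent.P275GC Vale.Agent.P275GC.At
open Vale.Agent.P275NA (Fm Cy Mn db dz fc)
open Vale.Agent.P275RR (Rc SV rc_of)
open Vale.Agent.P275MO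

noncomputable section

namespace Vale.Agent.P275KI

section abs
variable {X Y : Type} [NormedAddCommGroup X] [NormedSpace ℂ X] [NormedAddCommGroup Y]
  [NormedSpace ℂ Y] {L : Y →L[ℂ] X →L[ℂ] Y} {R : X →L[ℂ] Y →L[ℂ] Y} {S : Y →L[ℂ] X}
  {π t : Y →L[ℂ] Y}

theorem eqn_id {s : Y} (h : π s = s) : Eqn L R S π (s, 0) (0, s) := by simp [Eqn, h]

theorem eqn_lin (γ : X) : Eqn L R S π (0, γ) (γ, 0) := by simp [Eqn]

theorem exists_crd' [CompleteSpace Y] [FiniteDimensional ℂ (LinearMap.range π.toLinearMap)]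
    (h : ∀ y, π (π y) = π y) (tt : ∀ y, t (t y) = t y) (com : ∀ y, π (t y) = t (π y)) :
    ∃ (k : ℕ) (E : (Fin k → ℂ) →L[ℂ] Y) (Q : Y →L[ℂ] (Fin k → ℂ)),
      (∀ y, E (Q y) = t (π y)) ∧ ∀ s, Q (E s) = s := by
  have : FiniteDimensional ℂ (LinearMap.range (t ∘L π).toLinearMap) :=
    Submodule.finiteDimensional_of_le (S₂ := (LinearMap.range π.toLinearMap).map t.toLinearMap)
      (by rintro _ ⟨y, rfl⟩; exact ⟨_, ⟨y, rfl⟩, rfl⟩)
  exact exists_crd (t ∘L π) fun y => by simp only [ContinuousLinearMap.comp_apply, com, h, tt]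

theorem fix_of {k : ℕ} {E : (Fin k → ℂ) →L[ℂ] Y} {Q : Y →L[ℂ] (Fin k → ℂ)}
    (h : ∀ y, π (π y) = π y) (com : ∀ y, π (t y) = t (π y)) (e1 : ∀ y, E (Q y) = t (π y))
    (e2 : ∀ s, Q (E s) = s) (s : Fin k → ℂ) : π (E s) = E s := by
  rw [← e2 s, e1, com, h]

theorem ev_id {k : ℕ} {E : (Fin k → ℂ) →L[ℂ] Y} (hE : ∀ s, π (E s) = E s) {sol : Y × X → X × Y}
    (h : ∀ᶠ v in 𝓝 (0 : (Y × X) × X × Y), Eqn L R S π v.1 v.2 → sol v.1 = v.2) {N : Set (Y × X)}
    (hN : N ∈ 𝓝 0) : ∀ᶠ s in 𝓝 0, (E s, 0) ∈ N ∧ sol (E s, 0) = (0, E s) := by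
  have a : Tendsto (fun s => (E s, (0 : X))) (𝓝 0) (𝓝 0) :=
    Continuous.tendsto' (by fun_prop) _ _ (by simp)
  have b : Tendsto (fun s => ((E s, (0 : X)), (0 : X), E s)) (𝓝 0) (𝓝 0) :=
    Continuous.tendsto' (by fun_prop) _ _ (by simp)
  filter_upwards [a.eventually hN, b.eventually h] with s c d using ⟨c, d (eqn_id (hE s))⟩

theorem ev_lin {P : Type} [NormedAddCommGroup P] [NormedSpace ℂ P] (E : P →L[ℂ] X)
    {sol : Y × X → X × Y}
    (h : ∀ᶠ v in 𝓝 (0 : (Y × X) × X × Y), Eqn L R S π v.1 v.2 → sol v.1 = v.2) :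
    ∀ᶠ s in 𝓝 0, sol (0, E s) = (E s, 0) := by
  have b : Tendsto (fun s => (((0 : Y), E s), E s, (0 : Y))) (𝓝 0) (𝓝 0) :=
    Continuous.tendsto' (by fun_prop) _ _ (by simp)
  exact (b.eventually h).mono fun s d => d (eqn_lin _)

theorem ev_uni {P P' : Type} [NormedAddCommGroup P] [NormedSpace ℂ P] [NormedAddCommGroup P']
    [NormedSpace ℂ P'] (E : P →L[ℂ] Y) (Q : X →L[ℂ] P') {sol : Y × X → X × Y}
    (h : ∀ᶠ v in 𝓝 (0 : (Y × X) × X × Y), Eqn L R S π v.1 v.2 → sol v.1 = v.2) {M : Set (P' × P)}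
    (hM : M ∈ 𝓝 0) : ∀ᶠ v in 𝓝 (0 : X × P × P),
      (Q (v.1 + S (E v.2.1 + L (E v.2.1) v.1 - (E v.2.2 + R v.1 (E v.2.2)))), v.2.1) ∈ M ∧
      (Eqn L R S π (E v.2.1, v.1 + S (E v.2.1 + L (E v.2.1) v.1 - (E v.2.2 + R v.1 (E v.2.2))))
        (v.1, E v.2.2) → sol (E v.2.1, v.1 + S (E v.2.1 + L (E v.2.1) v.1 -
          (E v.2.2 + R v.1 (E v.2.2)))) = (v.1, E v.2.2)) := by
  have a : Tendsto (fun v : X × P × P => (Q (v.1 + S (E v.2.1 + L (E v.2.1) v.1 -
      (E v.2.2 + R v.1 (E v.2.2)))), v.2.1)) (𝓝 0) (𝓝 0) :=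
    Continuous.tendsto' (by fun_prop) _ _ (by simp)
  have b : Tendsto (fun v : X × P × P => ((E v.2.1, v.1 + S (E v.2.1 + L (E v.2.1) v.1 -
      (E v.2.2 + R v.1 (E v.2.2)))), v.1, E v.2.2)) (𝓝 0) (𝓝 0) :=
    Continuous.tendsto' (by fun_prop) _ _ (by simp)
  exact (a.eventually hM).and (b.eventually h)

end abs

variable {C : Type} [TopologicalSpace C] {A : At C} {n : ℕ} {l : Cy A ℂ} {g0 : Cy A (Mn n)}

theorem Kd.eE {hg : A.Cc g0} (D : Kd hg) (s : Cv D.k) {i : Fin A.N} {w : ℂ}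
    (a : w ∈ ball (0 : ℂ) A.R) : Sct.fm A (D.E s) i w = tf (Sct.fm A (D.K.π (D.E s)) i w) := by
  rw [← fm_tfY hg _ a, ← D.EQ, D.QE]

theorem sm_tf {f : Fm A (Mn n)} (h : A.Sm ∞ f) : A.Sm ∞ fun i w => tf (f i w) := fun i =>
  ((tfL n).restrictScalars ℝ).contDiff.comp_contDiffOn (h i)

theorem joint_bc {T Y : Type} [TopologicalSpace T] [NormedAddCommGroup Y] {r : ℝ} {W : Set T}
    {F : T → closedBall (0 : ℂ) r →ᵇ Y} (hF : ContinuousOn F W) {G : T × ℂ → Y}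
    (h : ∀ s ∈ W, ∀ w (hw : w ∈ ball (0 : ℂ) r), F s ⟨w, ball_subset_closedBall hw⟩ = G (s, w)) :
    ContinuousOn G (W ×ˢ ball 0 r) := by
  rw [continuousOn_iff_continuous_domRestrict] at hF ⊢
  have c : Continuous fun p : (W ×ˢ ball (0 : ℂ) r : Set (T × ℂ)) =>
      F p.1.1 ⟨p.1.2, ball_subset_closedBall p.2.2⟩ :=
    (hF.comp (f := fun p : (W ×ˢ ball (0 : ℂ) r : Set (T × ℂ)) => (⟨p.1.1, p.2.1⟩ : W))
      (by fun_prop)).eval (by fun_prop)
  exact c.congr fun p => h _ p.2.1 _ p.2.2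

theorem df_bc {T Y Z : Type} [NormedAddCommGroup T] [NormedSpace ℂ T] [NormedAddCommGroup Y]
    [NormedSpace ℂ Y] [TopologicalSpace Z] {F : T → Z →ᵇ Y} {t : T} (h : DifferentiableAt ℂ F t)
    (x : Z) : DifferentiableAt ℂ (fun s => F s x) t :=
  (BoundedContinuousFunction.evalCLM (β := Y) ℂ x).differentiableAt.comp t h

theorem exists_kd [T2Space C] (hn : n ≠ 0) (dol : DOL A) (hg : A.Cc g0) (i0 : Fin A.N) {ξ0 : ℂ}
    {ε : ℝ} (h0 : 0 < ε) (h1 : ‖ξ0‖ + ε < 1) :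
    ∃ D : Kd hg, ∀ f, ∀ w ∈ ball ξ0 ε, Sct.fm A (D.K.π f) i0 w = 0 := by
  obtain ⟨K0⟩ := (dol (Mn n) (adC A g0) (cc_adC hg)).1
  obtain ⟨K1, v1⟩ := (Sv.of (cc_adC hg) K0).van (cc_adC hg) i0 h0 h1
  obtain ⟨K, com, v2⟩ := K1.split (tfL n) (tf_adC hg) (cc_adC hg) fun x => tf_of (trace_tf hn x)
  have := K.fin
  have := K0.finp
  obtain ⟨k, E, Q, EQ, QE⟩ := exists_crd' (t := tfY hg) K.ππ (fun y => sct_ext (rc_adB hg)
    fun i z a => by simp only [fm_tfY hg _ (mem_of_le a), tf_of (trace_tf hn _)]) com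
  obtain ⟨m, E', Q', EQ', QE'⟩ := exists_crd K0.p K0.pp
  obtain ⟨δ, δ0, hδ⟩ := exists_small (mulR hg) K.π
  obtain ⟨sol, s1, s2, s3, s4⟩ := exists_sol (mulL hg) (mulR hg) K.S K.π
  obtain ⟨N, n1, n2, n3⟩ := _root_.eventually_nhds_iff.1 ((s1.eventually (by simp)).and s3)
  have eE : ∀ s i, ∀ w ∈ ball (0 : ℂ) A.R, Sct.fm A (E s) i w = tf (Sct.fm A (K.π (E s)) i w) :=
    fun s i w a => by rw [← fm_tfY hg _ a, ← EQ, QE]
  have hR := A.hR
  choose F P G a1 a2 a3 a4 a5 using fun i => P275IN.hint n (Cv k)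
    (LinearMap.proj i ∘ₗ fmL _ ∘ₗ E.toLinearMap) ((1 + A.R) / 2) A.R (by linarith)
    (fun s => (sm_tf (K.sm (E s)) i).congr (eE s i))
    fun s w a => (congrArg trace (eE s i w a)).trans (trace_tf hn _)
  obtain ⟨W, w1, w2, w3⟩ := _root_.eventually_nhds_iff.1 ((ev_id (fix_of K.ππ com EQ QE) s4
    (n2.mem_nhds n3)).and (eventually_all.2 fun i => (a5 i).and
      ((a1 i).eventually_analyticAt.and (a2 i).eventually_analyticAt)))
  refine ⟨⟨K, com, k, E, Q, EQ, QE, m, E', Q', fun x a => (EQ' x).trans (slv_p (cc_adC hg) K0 a),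
    QE', fun s => by rw [← QE' s, EQ']; exact K0.holp _, min 1 (δ / (‖(1 : Mn n)‖ + 1)),
    by positivity, min_le_left _ _, fun u y a => hδ u y (a.trans ?_), sol, s2, N, n2, n3,
    fun p a => ((n1 p a).1.differentiableAt one_ne_zero).differentiableWithinAt,
    fun p a => (n1 p a).2, s4, (1 + A.R) / 2, by linarith, by linarith, W, w2, w3,
    fun s a => (w1 s a).1, fun s i => G i s, fun i w a => ?_, fun s a i =>
      ⟨((w1 s a).2 i).1.1, fun w b => (((w1 s a).2 i).1.2.2 w b).2⟩,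
    fun i => joint_bc (F := F i) (fun s a => ((w1 s a).2 i).2.1.continuousAt.continuousWithinAt)
      fun s a w b => ((w1 s a).2 i).1.2.1 _,
    fun i => joint_bc (F := P i) (fun s a => ((w1 s a).2 i).2.2.continuousAt.continuousWithinAt)
      fun s a w b => (((w1 s a).2 i).1.2.2 w b).1, fun i w b => ?_, fun i w b => ?_⟩,
    fun f w a => v2 i0 w (mem_of_le ?_) (fun f => v1 f w a) f⟩
  · refine (mul_le_mul_of_nonneg_right (min_le_right _ _) (norm_nonneg _)).trans ?_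
    rw [div_mul_eq_mul_div, div_le_iff₀ (by positivity)]
    nlinarith
  · rw [← ((w1 0 w3).2 i).1.2.1 ⟨w, ball_subset_closedBall a⟩, a3]; rfl
  · exact DifferentiableOn.congr (f := fun s => F i s ⟨w, ball_subset_closedBall b⟩) (fun s a =>
      (df_bc ((w1 s a).2 i).2.1.differentiableAt _).differentiableWithinAt)
      fun s a => (((w1 s a).2 i).1.2.1 ⟨w, ball_subset_closedBall b⟩).symm
  · exact DifferentiableOn.congr (f := fun s => P i s ⟨w, ball_subset_closedBall b⟩) (fun s a =>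
      (df_bc ((w1 s a).2 i).2.2.differentiableAt _).differentiableWithinAt)
      fun s a => (((w1 s a).2 i).1.2.2 w b).1.symm
  · have := norm_le_norm_add_norm_sub' w ξ0
    have := mem_ball_iff_norm.1 a
    linarith

section cmp
variable [T2Space C] {g g1 : Cy A (Mn n)} {i j : Fin A.N} {z : ℂ}

variable (A) in
/-- the partition of unity with complex values -/
def pC (k i : Fin A.N) (w : ℂ) : ℂ := A.φ k i w

variable (A) in
/-- a sum over the charts -/
def cmb (c : Fin A.N → Fin A.N → ℂ → ℂ) (g g1 : Cy A (Mn n)) : Fm A (Mn n) := fun i w =>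
  ∑ k, c k i w • (g i k w * g1 k i (A.tr i k w))

theorem cd_pC (k : Fin A.N) (h : z ∈ ball (0 : ℂ) A.R) : ContDiffAt ℝ ∞ (pC A k i) z :=
  cd_ofReal ((sm_φ k).at h i)

theorem ev_pC (h : z ∈ ball (0 : ℂ) A.R) (h' : z ∉ A.O i j) : pC A j i =ᶠ[𝓝 z] fun _ => 0 :=
  (ev_φ h h').mono fun w a => by rw [pC, a, ofReal_zero]

theorem ev_dpC (h : z ∈ ball (0 : ℂ) A.R) (h' : z ∉ A.O i j) : db (pC A j i) =ᶠ[𝓝 z] fun _ => 0 :=
  (ev_pC h h').eventuallyEq_nhds.mono fun _ a =>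
    (P281Z.Hm.wb_congr a 1).trans (P281Z.Hm.wb_const _ _ _)

theorem wa_cmb (hg : A.Cc g) (hg1 : A.Cc g1) (h : z ∈ ball (0 : ℂ) A.R) :
    ContDiffAt ℝ 1 (cmb A (pC A) g g1 i) z ∧
      db (cmb A (pC A) g g1 i) z = cmb A (fun k i => db (pC A k i)) g g1 i z := by
  have a : ∀ k, ContDiffAt ℝ 1 (fun w => pC A k i w • (g i k w * g1 k i (A.tr i k w))) z ∧
      db (fun w => pC A k i w • (g i k w * g1 k i (A.tr i k w))) z =
        db (pC A k i) z • (g i k z * g1 k i (A.tr i k z)) := fun k => by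
    by_cases b : z ∈ A.O i k
    · have c := (hg.an b).mul ((hg1.an (tr_mem b)).comp (an_tr b))
      refine ⟨((cd_pC k h).of_le (by simp)).smul (cd_an c), ?_⟩
      have := P281Z.Hm.wb_smul ((cd_pC (i := i) k h).differentiableAt (by simp))
        (c.differentiableAt.restrictScalars ℝ) 1
      rw [P281Z.Hm.wb_hol c.differentiableAt, smul_zero, add_zero] at this
      exact this
    · have c : (fun w => pC A k i w • (g i k w * g1 k i (A.tr i k w))) =ᶠ[𝓝 z] fun _ => 0 :=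
        (ev_pC h b).mono fun w e => by simp only [e, zero_smul]
      refine ⟨contDiffAt_const.congr_of_eventuallyEq c, ?_⟩
      rw [(ev_dpC h b).self_of_nhds, zero_smul]
      exact (P281Z.Hm.wb_congr c 1).trans (P281Z.Hm.wb_const _ _ _)
  exact ⟨ContDiffAt.sum fun k _ => (a k).1, (P281Z.Hm.wb_sum _ (fun k _ =>
    (a k).1.differentiableAt one_ne_zero) 1).trans (Finset.sum_congr rfl fun k _ => (a k).2)⟩

theorem law_cmb (hg : A.Cc g) (hg1 : A.Cc g1) (h : z ∈ A.O i j) :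
    cmb A (pC A) g g1 i z * g1 i j z = g i j z * cmb A (pC A) g g1 j (A.tr i j z) := by
  simp only [cmb, Finset.sum_mul, Finset.mul_sum]
  refine Finset.sum_congr rfl fun k _ => ?_
  rw [show pC A k j (A.tr i j z) = pC A k i z from congrArg ofReal (fn_φ k i j z h).symm]
  by_cases b : z ∈ A.O i k
  · rw [tr_tr h, hg.mul i j k z h b, hg1.mul k i j _ (tr_mem b) (tr_O b h), tr_inv b]
    simp only [Matrix.smul_mul, Matrix.mul_smul, Matrix.mul_assoc]
  · rw [(ev_pC h.1 b).self_of_nhds, zero_smul, zero_smul, Matrix.zero_mul, Matrix.mul_zero]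

theorem cmb_one (hg1 : A.Cc g1) (e : ∀ i j, ∀ w ∈ A.O i j, g i j w = g1 i j w)
    (h : z ∈ ball (0 : ℂ) A.R) : cmb A (pC A) g g1 i z = 1 := by
  have a : ∀ k, pC A k i z • (g i k z * g1 k i (A.tr i k z)) = pC A k i z • (1 : Mn n) := fun k => by
    by_cases b : z ∈ A.O i k
    · rw [e i k z b, hg1.inv b]
    · rw [(ev_pC h b).self_of_nhds, zero_smul, zero_smul]
  simp only [cmb, a]
  simp only [← Finset.sum_smul, pC, ← ofReal_sum, sum_φ, ofReal_one, one_smul]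

theorem joint_cmb {T : Type} [TopologicalSpace T] {V : Set T} {g : T → Cy A (Mn n)}
    {c : Fin A.N → Fin A.N → ℂ → ℂ} (hg1 : A.Cc g1)
    (h1 : ∀ k i, ContinuousOn (c k i) (ball 0 A.R))
    (h2 : ∀ k i, ∀ z ∈ ball (0 : ℂ) A.R, z ∉ A.O i k → c k i =ᶠ[𝓝 z] fun _ => 0)
    (hc : ∀ i j, ContinuousOn (fun p : T × ℂ => g p.1 i j p.2) (V ×ˢ A.O i j)) (i : Fin A.N) :
    ContinuousOn (fun p : T × ℂ => cmb A c (g p.1) g1 i p.2) (V ×ˢ ball 0 A.R) := by
  refine continuousOn_finsetSum _ fun k _ p hp => ?_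
  by_cases b : p.2 ∈ A.O i k
  · refine (((h1 k i).continuousAt (isOpen_ball.mem_nhds hp.2)).comp
      continuousAt_snd).continuousWithinAt.smul (((hc i k p (mk_mem_prod hp.1 b)).mono_of_mem_nhdsWithin
        ?_).mul ((((hg1.an (tr_mem b)).comp (an_tr b)).continuousAt.comp
          continuousAt_snd).continuousWithinAt))
    filter_upwards [self_mem_nhdsWithin, mem_nhdsWithin_of_mem_nhds
      (continuous_snd.continuousAt.eventually (O_nhds b))] with q x y using mk_mem_prod x.1 y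
  · refine (continuousAt_const.congr (f := fun _ => (0 : Mn n)) ?_).continuousWithinAt
    filter_upwards [continuous_snd.continuousAt.eventually (h2 k i _ hp.2 b)] with q x
    rw [x, zero_smul]

theorem df_cmb {T : Type} [NormedAddCommGroup T] [NormedSpace ℂ T] {V : Set T}
    {g : T → Cy A (Mn n)} {c : Fin A.N → Fin A.N → ℂ → ℂ}
    (h2 : ∀ k i, ∀ z ∈ ball (0 : ℂ) A.R, z ∉ A.O i k → c k i =ᶠ[𝓝 z] fun _ => 0)
    (hc : ∀ i j, DifferentiableOn ℂ (fun p : T × ℂ => g p.1 i j p.2) (V ×ˢ A.O i j))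
    (h : z ∈ ball (0 : ℂ) A.R) : DifferentiableOn ℂ (fun t => cmb A c (g t) g1 i z) V := by
  refine DifferentiableOn.fun_sum fun k _ => ?_
  by_cases b : z ∈ A.O i k
  · exact (((hc i k).comp (f := fun t => (t, z)) (by fun_prop) fun _ a =>
      mk_mem_prod a b).mul_const _).const_smul (c k i z)
  · simp only [(h2 k i z h b).self_of_nhds, zero_smul]
    exact differentiableOn_const _

end cmp

end Vale.Agent.P275KI
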