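import Mathlib.Analysis.Calculus.ImplicitContDiff
import Mathlib.Analysis.Complex.Basic

/-!
# P275, block KI: the implicit function theorem for the gauge equation
-/

set_option linter.unusedSectionVars false

open scoped Topology
open Filter Set

noncomputable section

namespace Vale.Agent.P275KI

variable {X Y : Type} [NormedAddCommGroup X] [NormedSpace ℂ X] [CompleteSpace X]
  [NormedAddCommGroup Y] [NormedSpace ℂ Y] [CompleteSpace Y]

/-- the gauge equation -/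
def Eqn (L : Y →L[ℂ] X →L[ℂ] Y) (R : X →L[ℂ] Y →L[ℂ] Y) (S : Y →L[ℂ] X) (π : Y →L[ℂ] Y)
    (p : Y × X) (q : X × Y) : Prop :=
  q.1 + S (p.1 + L p.1 q.1 - (q.2 + R q.1 q.2)) = p.2 ∧ q.2 + π (R q.1 q.2 - (p.1 + L p.1 q.1)) = 0

theorem exists_sol (L : Y →L[ℂ] X →L[ℂ] Y) (R : X →L[ℂ] Y →L[ℂ] Y) (S : Y →L[ℂ] X)
    (π : Y →L[ℂ] Y) : ∃ sol : Y × X → X × Y, ContDiffAt ℂ 1 sol 0 ∧ sol 0 = 0 ∧
      (∀ᶠ p in 𝓝 0, Eqn L R S π p (sol p)) ∧
      ∀ᶠ v in 𝓝 (0 : (Y × X) × X × Y), Eqn L R S π v.1 v.2 → sol v.1 = v.2 := by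
  let Ψ : (Y × X) × X × Y → X × Y := fun v =>
    (v.2.1 + S (v.1.1 + L v.1.1 v.2.1 - (v.2.2 + R v.2.1 v.2.2)) - v.1.2,
      v.2.2 + π (R v.2.1 v.2.2 - (v.1.1 + L v.1.1 v.2.1)))
  have hΨ : ContDiffAt ℂ 1 Ψ 0 := by fun_prop
  have e0 : Ψ 0 = 0 := by simp [Ψ]
  have iff : ∀ v, Ψ v = Ψ 0 ↔ Eqn L R S π v.1 v.2 := fun v => by
    rw [e0, Prod.ext_iff]; simp only [Ψ, Eqn, sub_eq_zero, Prod.fst_zero, Prod.snd_zero]
  let f := ContinuousLinearMap.fst ℂ X Y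
  let g := ContinuousLinearMap.snd ℂ X Y
  have hR : HasFDerivAt (fun q : X × Y => R q.1 q.2) (0 : X × Y →L[ℂ] Y) 0 := by
    refine (R.isBoundedBilinearMap.hasFDerivAt (0 : X × Y)).congr_fderiv ?_
    ext <;> simp
  have h1 : HasFDerivAt (fun q : X × Y => Ψ (0, q)) ((f - S ∘L g).prod g) 0 := by
    have a := (f.hasFDerivAt (x := 0)).add
      (S.hasFDerivAt.comp (0 : X × Y) ((g.hasFDerivAt (x := 0)).add hR).neg)
    have b := (g.hasFDerivAt (x := 0)).add (π.hasFDerivAt.comp (0 : X × Y) hR)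
    refine ((a.prodMk b).congr_fderiv ?_).congr_of_eventuallyEq (Eventually.of_forall fun q => ?_)
    · ext <;> simp [f, g]
    · simp [Ψ, f, g]
  have h2 : HasFDerivAt (fun q : X × Y => Ψ (0, q))
      (fderiv ℂ Ψ 0 ∘L ContinuousLinearMap.inr ℂ (Y × X) (X × Y)) 0 :=
    HasFDerivAt.comp (0 : X × Y) (g := Ψ) (f := fun q : X × Y => ((0 : Y × X), q))
      (hΨ.differentiableAt one_ne_zero).hasFDerivAt (hasFDerivAt_prodMk_right _ _)
  have hi : (fderiv ℂ Ψ 0 ∘L ContinuousLinearMap.inr ℂ (Y × X) (X × Y)).IsInvertible := by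
    rw [h2.unique h1]
    refine ContinuousLinearMap.IsInvertible.of_inverse (g := (f + S ∘L g).prod g) ?_ ?_ <;>
      ext <;> simp [f, g]
  refine ⟨hΨ.implicitFunction one_ne_zero hi, hΨ.contDiffAt_implicitFunction one_ne_zero hi,
    hΨ.implicitFunction_apply_self one_ne_zero hi,
    (hΨ.eventually_apply_implicitFunction one_ne_zero hi).mono fun p h => (iff _).1 h,
    (hΨ.eventually_apply_eq_iff_implicitFunction one_ne_zero hi).mono fun v h a =>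
      h.1 ((iff v).2 a)⟩

theorem exists_small (R : X →L[ℂ] Y →L[ℂ] Y) (π : Y →L[ℂ] Y) : ∃ δ : ℝ, 0 < δ ∧
    ∀ (u : X) (y : Y), ‖u‖ ≤ δ → y + π (R u y) = 0 → y = 0 := by
  refine ⟨(2 * (‖π‖ * ‖R‖ + 1))⁻¹, by positivity, fun u y hu h => ?_⟩
  have a : ‖y‖ ≤ ‖π‖ * (‖R‖ * ‖u‖ * ‖y‖) := by
    conv_lhs => rw [eq_neg_of_add_eq_zero_left h, norm_neg]
    exact (π.le_opNorm _).trans (mul_le_mul_of_nonneg_left (R.le_opNorm₂ u y) (norm_nonneg _))
  have b : ‖π‖ * ‖R‖ * ‖u‖ ≤ 2⁻¹ := by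
    calc ‖π‖ * ‖R‖ * ‖u‖ ≤ (‖π‖ * ‖R‖ + 1) * (2 * (‖π‖ * ‖R‖ + 1))⁻¹ := by
          gcongr; linarith
      _ = 2⁻¹ := by field_simp
  have c := norm_nonneg y
  exact norm_le_zero_iff.1 (by nlinarith)

/-- coordinates on the range of an operator of finite rank -/
theorem exists_crd (π : Y →L[ℂ] Y) [FiniteDimensional ℂ (LinearMap.range π.toLinearMap)]
    (h : ∀ y, π (π y) = π y) : ∃ (k : ℕ) (E : (Fin k → ℂ) →L[ℂ] Y) (Q : Y →L[ℂ] (Fin k → ℂ)),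
      (∀ y, E (Q y) = π y) ∧ ∀ s, Q (E s) = s := by
  let e := (Module.finBasis ℂ (LinearMap.range π.toLinearMap)).equivFun.toContinuousLinearEquiv
  refine ⟨_, (LinearMap.range π.toLinearMap).subtypeL ∘L e.symm.toContinuousLinearMap,
    e.toContinuousLinearMap ∘L π.codRestrict _ fun y => ⟨y, rfl⟩,
    fun y => congrArg Subtype.val (e.symm_apply_apply ⟨π y, y, rfl⟩), fun s => ?_⟩
  refine e.symm.injective (Subtype.ext ?_)
  obtain ⟨y, hy⟩ := (e.symm s).2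
  simp only [ContinuousLinearMap.comp_apply, ContinuousLinearEquiv.coe_coe,
    ContinuousLinearEquiv.symm_apply_apply, Submodule.subtypeL_apply, ← hy]
  exact h y

end Vale.Agent.P275KI
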