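import Vale.Agent.P275KI.Ad

/-!
# P275, block KI: the data of the Kuranishi family of a bundle, and isomorphisms in families
-/

set_option linter.unusedSectionVars false

open scoped Topology ComplexConjugate ContDiff Matrix.Norms.Operator
open Filter Set Complex Metric Matrix
open Vale.Agent.P275GC Vale.Agent.P275GC.At
open Vale.Agent.P275NA (Fm Cy Mn db dz fc)
open Vale.Agent.P275RR (Rc SV rc_of)
open Vale.Agent.P275MO

noncomputable section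

namespace Vale.Agent.P275KI

variable {C : Type} [TopologicalSpace C] {A : At C} {n : ℕ} {l : Cy A ℂ} {g0 : Cy A (Mn n)}

section gen
variable {V : Type} [NormedAddCommGroup V] [NormedSpace ℝ V] [NormedSpace ℂ V]
  [IsScalarTower ℝ ℂ V] [CompleteSpace V] {G : Cy A (V →L[ℂ] V)} (K : Sv G)
  {L : Sct A (bar A G) →L[ℂ] Sct A G →L[ℂ] Sct A (bar A G)}
  {R : Sct A G →L[ℂ] Sct A (bar A G) →L[ℂ] Sct A (bar A G)}

theorem Sv.eqn_wd {p : Sct A (bar A G) × Sct A G} {q : Sct A G × Sct A (bar A G)}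
    (h : Eqn L R K.S K.π p q) (hγ : A.Hl (Sct.fm A p.2)) : K.π q.2 = q.2 ∧
      WD A (Sct.fm A q.1) (Sct.fm A (q.2 + R q.1 q.2 - (p.1 + L p.1 q.1))) := by
  have a : K.π q.2 = q.2 := by
    rw [eq_neg_of_add_eq_zero_left h.2, map_neg, K.ππ]
  have b : K.π (p.1 + L p.1 q.1 - (q.2 + R q.1 q.2)) = 0 := by
    rw [← neg_eq_zero, ← h.2, ← map_neg, neg_sub, add_sub_assoc, map_add, a]
  have c := K.wd (p.1 + L p.1 q.1 - (q.2 + R q.1 q.2))
  rw [b, sub_zero] at c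
  have d := WD.fm_sub (f := 0) ((wd_hl hγ).congr (fun _ _ _ => rfl) fun _ _ _ => fm_zero) c
  rw [← h.1, add_sub_cancel_right, zero_sub, neg_sub] at d
  exact ⟨a, d⟩

theorem Sv.eqn_of {a s : Sct A (bar A G)} {u : Sct A G} (hs : K.π s = s)
    (h : WD A (Sct.fm A u) (Sct.fm A (s + R u s - (a + L a u)))) :
    Eqn L R K.S K.π (a, u + K.S (a + L a u - (s + R u s))) (u, s) ∧
      A.Hl (Sct.fm A (u + K.S (a + L a u - (s + R u s)))) := by
  have b := K.ex _ _ h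
  have c := h.fm_add (K.wd (a + L a u - (s + R u s)))
  rw [← neg_sub (s + R u s), map_neg K.π, b, neg_zero, sub_zero, add_neg_cancel, neg_sub] at c
  refine ⟨⟨rfl, ?_⟩, (c.congr (fun _ _ _ => rfl) fun _ _ _ => fm_zero.symm).hl⟩
  rwa [add_sub_assoc, map_add, hs] at b

theorem Sv.aux {t : Sct A (bar A G) →L[ℂ] Sct A (bar A G)} (com : ∀ f, K.π (t f) = t (K.π f))
    {s y : Sct A (bar A G)} (hs : K.π s = s) {u : Sct A G}
    (h : WD A (Sct.fm A u) (Sct.fm A (s - t s + y))) : s - t s + K.π y = 0 := by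
  have := K.ex _ _ h
  rwa [map_add, map_sub, com, hs] at this

end gen

variable (A) in
/-- sections of `End E` -/
abbrev XS (g : Cy A (Mn n)) : Type := Sct A (adC A g)

variable (A) in
/-- `(0,1)`-forms with values in `End E` -/
abbrev YS (g : Cy A (Mn n)) : Type := Sct A (bar A (adC A g))

/-- all the data -/
structure Kd (hg : A.Cc g0) where
  K : Sv (adC A g0)
  com : ∀ f, K.π (tfY hg f) = tfY hg (K.π f)
  k : ℕ
  E : Cv k →L[ℂ] YS A g0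
  Q : YS A g0 →L[ℂ] Cv k
  EQ : ∀ y, E (Q y) = tfY hg (K.π y)
  QE : ∀ s, Q (E s) = s
  m : ℕ
  E' : Cv m →L[ℂ] XS A g0
  Q' : XS A g0 →L[ℂ] Cv m
  EQ' : ∀ x, A.Hl (Sct.fm A x) → E' (Q' x) = x
  QE' : ∀ s, Q' (E' s) = s
  hol : ∀ s, A.Hl (Sct.fm A (E' s))
  δ : ℝ
  δ0 : 0 < δ
  δ1 : δ ≤ 1
  small : ∀ u y, ‖u‖ ≤ δ * ‖(1 : Mn n)‖ → y + K.π (mulR hg u y) = 0 → y = 0
  sol : YS A g0 × XS A g0 → XS A g0 × YS A g0
  sol0 : sol 0 = 0
  N : Set (YS A g0 × XS A g0)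
  opN : IsOpen N
  N0 : 0 ∈ N
  dsol : DifferentiableOn ℂ sol N
  eqn : ∀ p ∈ N, Eqn (mulL hg) (mulR hg) K.S K.π p (sol p)
  uni : ∀ᶠ v in 𝓝 (0 : (YS A g0 × XS A g0) × XS A g0 × YS A g0),
    Eqn (mulL hg) (mulR hg) K.S K.π v.1 v.2 → sol v.1 = v.2
  r : ℝ
  h1 : 1 < r
  h2 : r ≤ A.R
  W : Set (Cv k)
  op : IsOpen W
  zero : 0 ∈ W
  WN : ∀ s ∈ W, (E s, 0) ∈ N ∧ sol (E s, 0) = (0, E s)
  F : Cv k → Fm A (Mn n)
  F0 : ∀ i, ∀ w ∈ ball (0 : ℂ) r, F 0 i w = 1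
  fr : ∀ s ∈ W, ∀ i, Fr r (Sct.fm A (E s) i) (F s i)
  Fc : ∀ i, ContinuousOn (fun p : Cv k × ℂ => F p.1 i p.2) (W ×ˢ ball 0 r)
  Pc : ∀ i, ContinuousOn (fun p : Cv k × ℂ => dz (F p.1 i) p.2) (W ×ˢ ball 0 r)
  Fh : ∀ i, ∀ w ∈ ball (0 : ℂ) r, DifferentiableOn ℂ (fun s => F s i w) W
  Ph : ∀ i, ∀ w ∈ ball (0 : ℂ) r, DifferentiableOn ℂ (fun s => dz (F s i) w) W

variable (g0) in
/-- the Dolbeault operator pulled back by `Θ` -/
def al (Θ : Fm A (Mn n)) : YS A g0 := mk _ fun i w => (Θ i w)⁻¹ * db (Θ i) w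

/-- a smooth isomorphism from `g0` to `g` -/
structure Adm (A : At C) (l : Cy A ℂ) (g0 g : Cy A (Mn n)) (Θ : Fm A (Mn n)) : Prop where
  bun : Bun A l g
  sm : A.Sm 1 Θ
  law : ∀ i j, ∀ w ∈ A.O i j, Θ i w * g0 i j w = g i j w * Θ j (A.tr i j w)
  det : ∀ i, ∀ w ∈ ball (0 : ℂ) A.R, (Θ i w).det ≠ 0

theorem Adm.sv {g : Cy A (Mn n)} {Θ : Fm A (Mn n)} (h : Adm A l g0 g Θ) (hg : A.Cc g0) :
    A.Ct (fun i w => (Θ i w)⁻¹ * db (Θ i) w) ∧
      SV A (bar A (adC A g0)) fun i w => (Θ i w)⁻¹ * db (Θ i) w := by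
  refine ⟨fun i => (ca_inv (h.sm.ct i) (h.det i)).mul (P275CT.db_contOn isOpen_ball (h.sm i)),
    (esec_svb hg).1 fun i j w a => ?_⟩
  have e := ((wa_cd (h.sm.at a.1 i)).mul (wa_an (hg.an a))).uniq (((wa_an (h.bun.cc.an a)).mul
    ((wa_cd (h.sm.at (tr_ball a) j)).comp (an_tr a))).congr
      (eventually_of_mem (O_nhds a) (h.law i j)) EventuallyEq.rfl)
  simp only [Matrix.mul_zero, Matrix.zero_mul, add_zero, zero_add] at e
  have e2 : (Θ i w)⁻¹ * g i j w = g0 i j w * (Θ j (A.tr i j w))⁻¹ := by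
    rw [← mul_nonsing_inv_cancel_right (Θ j (A.tr i j w)) ((Θ i w)⁻¹ * g i j w)
      (h.det j _ (tr_ball a)).isUnit, Matrix.mul_assoc _ (g i j w), ← h.law i j w a,
      nonsing_inv_mul_cancel_left _ _ (h.det i w a.1).isUnit]
  rw [Matrix.mul_assoc, e, ← Matrix.mul_assoc, e2, Matrix.mul_smul, Matrix.mul_assoc]
  rfl

namespace Kd

variable {hg : A.Cc g0} (D : Kd hg)

/-- the parameter of the isomorphic member of the family -/
def sa (Θ : Fm A (Mn n)) (γ : XS A g0) : Cv D.k := D.Q (D.sol (al g0 Θ, γ)).2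

/-- the smooth isomorphism onto the Dolbeault operator of the slice -/
def MM (Θ : Fm A (Mn n)) (γ : XS A g0) : Fm A (Mn n) := fun i w =>
  Θ i w * (1 + Sct.fm A (D.sol (al g0 Θ, γ)).1 i w)

/-- the holomorphic isomorphism -/
def PH (Θ : Fm A (Mn n)) (γ : XS A g0) : Fm A (Mn n) := fun i w =>
  D.MM Θ γ i w * D.F (D.sa Θ γ) i w

variable {r : ℝ} {h1 : 1 < r} {h2 : r ≤ A.R}

theorem fm_al (hg : A.Cc g0) {g : Cy A (Mn n)} {Θ : Fm A (Mn n)}
    (h : Adm (A.res r h1 h2) l g0 g Θ) {i : Fin A.N} {w : ℂ} (a : w ∈ ball (0 : ℂ) r) :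
    Sct.fm A (al g0 Θ) i w = (Θ i w)⁻¹ * db (Θ i) w :=
  fm_mk_res (rc_adB hg) (h.sv hg.res).1 (h.sv hg.res).2 a

theorem iso (hb : Bun A l g0) (hr : r ≤ D.r) {g : Cy A (Mn n)} {Θ : Fm A (Mn n)} {γ : XS A g0}
    (h : Adm (A.res r h1 h2) l g0 g Θ) (hγ : A.Hl (Sct.fm A γ)) (hN : (al g0 Θ, γ) ∈ D.N)
    (hW : D.sa Θ γ ∈ D.W) (hδ : ∀ i w, ‖w‖ ≤ 1 → ‖(D.MM Θ γ i w).det - 1‖ < D.δ) :
    BIso (A.res r h1 h2) (fc A (D.F (D.sa Θ γ)) g0) g (D.PH Θ γ) := by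
  obtain ⟨a, b⟩ := D.K.eqn_wd (D.eqn _ hN) hγ
  set u := (D.sol (al g0 Θ, γ)).1
  set s := (D.sol (al g0 Θ, γ)).2
  have sb : ball (0 : ℂ) r ⊆ ball 0 A.R := ball_subset_ball h2
  have law : ∀ i j : Fin A.N, ∀ w ∈ (A.res r h1 h2).O i j,
      D.MM Θ γ i w * g0 i j w = g i j w * D.MM Θ γ j (A.tr i j w) := fun i j w c => by
    have := (esec_sv hg).2 (fm_sv (rc_adC hg) u) i j w (res_O.1 c).1
    rw [one_smul] at this
    simp only [MM]
    rw [Matrix.mul_assoc, Matrix.add_mul, this, Matrix.one_mul, ← Matrix.mul_assoc (g i j w)]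
    erw [← h.law i j w c]
    rw [Matrix.mul_assoc, Matrix.mul_add (g0 i j w), Matrix.mul_one]
  have wd : WD (A.res r h1 h2) (D.MM Θ γ) fun i w => D.MM Θ γ i w * Sct.fm A s i w :=
      fun (i : Fin A.N) z c => by
    refine ((wa_cd (h.sm.at c i)).mul ((wa_const 1).add (b i z (sb c)))).congr EventuallyEq.rfl ?_
    filter_upwards [isOpen_ball.mem_nhds c] with w e
    simp only [MM, fm_sub, fm_add, fm_mulL hg _ _ (sb e), fm_mulR hg _ _ (sb e), fm_al hg h e]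
    have := mul_nonsing_inv_cancel_left _ (db (Θ i) w) (h.det i w e).isUnit
    simp only [zero_add, Matrix.mul_sub, Matrix.mul_add, Matrix.add_mul, Matrix.mul_one,
      ← Matrix.mul_assoc] at this ⊢
    rw [this]
    abel
  have d0 := fun i z c => det_ne_of (i := i) (z := z) (Bun.res hb) h.bun law
    (fun i w e => (hδ i w e).trans_le D.δ1) c
  have wD := fun i z c => (wd i z c).det (d0 i z c)
  have us : US A (adC A g0) fun i w => ((D.MM Θ γ i w).det - 1) • (1 : Mn n) :=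
    us_res (h1 := h1) (h2 := h2) (fun i z c =>
      (((wD i z c).ct.sub continuousAt_const).smul continuousAt_const).continuousWithinAt)
      fun i j w c => by
        rw [map_smul, show (D.MM Θ γ i w).det = _ from fn_det (Bun.res hb) h.bun law i j w c]
        erw [adC_one hg (res_O.1 c).1]
  have e0 : s - tfY hg s = 0 := by
    refine D.small (P275KI.mk _ fun i w => ((D.MM Θ γ i w).det - 1) • (1 : Mn n)) _
      (norm_le (rc_adC hg) _ (by have := D.δ0; positivity) fun i w c => ?_) ?_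
    · rw [fm_mk (rc_adC hg) us c, norm_smul]
      exact mul_le_mul_of_nonneg_right (hδ i w c).le (norm_nonneg _)
    · refine D.K.aux D.com a (u := (n : ℂ)⁻¹ • P275KI.mk _ fun i w =>
        ((D.MM Θ γ i w).det - 1) • (1 : Mn n)) (wd_fm (cc_adC hg) fun i z c => ?_)
      have c' := mem_ball_zero_iff.2 c
      refine ((((wD i z (ball_subset_ball h1.le c')).sub (wa_const 1)).smul
        (wa_const (1 : Mn n))).csmul (n : ℂ)⁻¹).congr ?_ ?_ <;>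
      filter_upwards [isOpen_ball.mem_nhds c'] with w e
      · rw [fm_smul, fm_mk (rc_adC hg) us (mem_ball_zero_iff.1 e).le]
      · have e' := mem_of_le (A := A) (mem_ball_zero_iff.1 e).le
        simp only [fm_add, fm_mulR hg _ _ e', fm_sub, fm_tfY hg _ e', tf, sub_sub_cancel,
          fm_mk (rc_adC hg) us (mem_ball_zero_iff.1 e).le, Matrix.smul_mul, Matrix.one_mul]
        module
  have e2 : D.E (D.sa Θ γ) = s := by
    rw [sa, D.EQ, a]; exact (sub_eq_zero.1 e0).symm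
  exact biso_of (A := A.res r h1 h2) (s := Sct.fm A s)
    (fun i => e2 ▸ (D.fr _ hW i).mono hr) law d0 wd

section fam
variable {T : Type} [TopologicalSpace T]

/-- a continuous family of smooth isomorphisms -/
structure FH (l : Cy A ℂ) (g0 : Cy A (Mn n)) (h1 : 1 < r) (h2 : r ≤ A.R) (g : T → Cy A (Mn n))
    (Θ : T → Fm A (Mn n)) (γ : T → XS A g0) (V : Set T) : Prop where
  adm : ∀ t ∈ V, Adm (A.res r h1 h2) l g0 (g t) (Θ t)
  hol : ∀ t ∈ V, A.Hl (Sct.fm A (γ t))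
  c0 : ∀ i, ContinuousOn (fun p : T × ℂ => Θ p.1 i p.2) (V ×ˢ ball 0 r)
  c1 : ∀ i, ContinuousOn (fun p : T × ℂ => db (Θ p.1 i) p.2) (V ×ˢ ball 0 r)
  cγ : ContinuousOn γ V

variable {g : T → Cy A (Mn n)} {Θ : T → Fm A (Mn n)} {γ : T → XS A g0} {V V' : Set T}

theorem FH.mono (h : FH l g0 h1 h2 g Θ γ V) (a : V' ⊆ V) : FH l g0 h1 h2 g Θ γ V' :=
  ⟨fun t b => h.adm t (a b), fun t b => h.hol t (a b), fun i => (h.c0 i).mono (prod_mono_left a),
    fun i => (h.c1 i).mono (prod_mono_left a), h.cγ.mono a⟩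

theorem FH.jal (h : FH l g0 h1 h2 g Θ γ V) (i : Fin A.N) : ContinuousOn
    (fun p : T × ℂ => (Θ p.1 i p.2)⁻¹ * db (Θ p.1 i) p.2) (V ×ˢ closedBall 0 1) :=
  ((ca_inv (h.c0 i) fun _ a => (h.adm _ a.1).det i _ a.2).mul (h.c1 i)).mono
    (prod_mono_right (closedBall_subset_ball h1))

theorem FH.cal (hg : A.Cc g0) (h : FH l g0 h1 h2 g Θ γ V) :
    ContinuousOn (fun t => (al g0 (Θ t), γ t)) V :=
  (cont_mk (rc_adB hg) (fun t a => us_res ((h.adm t a).sv hg.res).1 ((h.adm t a).sv hg.res).2)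
    h.jal).prodMk h.cγ

theorem cMM (h : FH l g0 h1 h2 g Θ γ V) (hN : ∀ t ∈ V, (al g0 (Θ t), γ t) ∈ D.N) (i : Fin A.N) :
    ContinuousOn (fun p : T × ℂ => D.MM (Θ p.1) (γ p.1) i p.2) (V ×ˢ ball 0 r) :=
  have a : ContinuousOn (fun t => (D.sol (al g0 (Θ t), γ t)).1) V :=
    (D.dsol.continuousOn.comp (h.cal hg) hN).fst
  (h.c0 i).mul (continuousOn_const.add ((joint_fm (rc_adC hg) a i).mono
    (prod_mono_right (ball_subset_ball h2))))

theorem csa (h : FH l g0 h1 h2 g Θ γ V) (hN : ∀ t ∈ V, (al g0 (Θ t), γ t) ∈ D.N) :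
    ContinuousOn (fun t => D.sa (Θ t) (γ t)) V :=
  D.Q.continuous.comp_continuousOn (D.dsol.continuousOn.comp (h.cal hg) hN).snd

theorem cPH (hr : r ≤ D.r) (h : FH l g0 h1 h2 g Θ γ V) (hN : ∀ t ∈ V, (al g0 (Θ t), γ t) ∈ D.N)
    (hW : ∀ t ∈ V, D.sa (Θ t) (γ t) ∈ D.W) (i : Fin A.N) :
    ContinuousOn (fun p : T × ℂ => D.PH (Θ p.1) (γ p.1) i p.2) (V ×ˢ ball 0 r) :=
  (D.cMM h hN i).mul ((D.Fc i).comp (f := fun p : T × ℂ => (D.sa (Θ p.1) (γ p.1), p.2))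
    (((D.csa h hN).comp continuousOn_fst fun _ a => a.1).prodMk continuousOn_snd)
    fun _ a => mk_mem_prod (hW _ a.1) (ball_subset_ball hr a.2))

theorem ev_unit {ι Y : Type} [Finite ι] [TopologicalSpace Y] {f : ι → T × ℂ → Y} {t0 : T}
    (h1 : 1 < r) (hV : V ∈ 𝓝 t0) (hc : ∀ i, ContinuousOn (f i) (V ×ˢ ball 0 r)) {O : Set Y}
    (hO : IsOpen O) (h0 : ∀ i w, ‖w‖ ≤ 1 → f i (t0, w) ∈ O) :
    ∀ᶠ t in 𝓝 t0, ∀ i w, ‖w‖ ≤ 1 → f i (t, w) ∈ O := by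
  refine eventually_all.2 fun i => ((isCompact_closedBall (0 : ℂ) 1).eventually_forall_of_forall_eventually
    (P := fun t w => f i (t, w) ∈ O) fun w hw => ?_).mono fun t a w b => a w (mcb b)
  exact ((hc i).continuousAt (prod_mem_nhds hV (isOpen_ball.mem_nhds
    (closedBall_subset_ball h1 hw)))).eventually (hO.mem_nhds (h0 i w (mem_closedBall_zero_iff.1 hw)))

/-- the isomorphisms exist near the base point -/
theorem fam (hb : Bun A l g0) (hr : r ≤ D.r) (h : FH l g0 h1 h2 g Θ γ V) {t0 : T} (hV : V ∈ 𝓝 t0)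
    (hN : (al g0 (Θ t0), γ t0) ∈ D.N) (hW : D.sa (Θ t0) (γ t0) ∈ D.W)
    (hδ : ∀ i w, ‖w‖ ≤ 1 → (D.MM (Θ t0) (γ t0) i w).det = 1) : ∀ᶠ t in 𝓝 t0, t ∈ V ∧
      (al g0 (Θ t), γ t) ∈ D.N ∧ D.sa (Θ t) (γ t) ∈ D.W ∧
      BIso (A.res r h1 h2) (fc A (D.F (D.sa (Θ t) (γ t))) g0) (g t) (D.PH (Θ t) (γ t)) := by
  have a := ((h.cal hg).continuousAt hV).eventually (D.opN.mem_nhds hN)
  have m : {t | t ∈ V ∧ (al g0 (Θ t), γ t) ∈ D.N} ∈ 𝓝 t0 := inter_mem hV a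
  have h' := h.mono (V' := {t | t ∈ V ∧ (al g0 (Θ t), γ t) ∈ D.N}) fun _ b => b.1
  filter_upwards [m, ((D.csa h' fun _ b => b.2).continuousAt m).eventually (D.op.mem_nhds hW),
    ev_unit (O := {X : Mn n | ‖X.det - 1‖ < D.δ}) h1 m (D.cMM h' fun _ b => b.2)
      (isOpen_lt (cont_det.sub continuous_const).norm continuous_const) fun i w b => by
        simp only [mem_ofPred_eq, hδ i w b, sub_self, norm_zero, D.δ0]] with t b c d
  exact ⟨b.1, b.2, c, D.iso hb hr (h.adm t b.1) (h.hol t b.1) b.2 c d⟩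

end fam

/-- holomorphic dependence on the parameter -/
theorem famh {T : Type} [NormedAddCommGroup T] [NormedSpace ℂ T] [FiniteDimensional ℂ T]
    {g : T → Cy A (Mn n)} {Θ : T → Fm A (Mn n)} {γ : T → XS A g0} {V : Set T} (hr : r ≤ D.r)
    (h : FH l g0 h1 h2 g Θ γ V) (hV : IsOpen V) (hN : ∀ t ∈ V, (al g0 (Θ t), γ t) ∈ D.N)
    (hW : ∀ t ∈ V, D.sa (Θ t) (γ t) ∈ D.W)
    (hI : ∀ t ∈ V, (A.res r h1 h2).Hl (D.PH (Θ t) (γ t)))
    (d0 : ∀ i, ∀ w ∈ ball (0 : ℂ) r, DifferentiableOn ℂ (fun t => Θ t i w) V)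
    (d1 : ∀ i, ∀ w ∈ ball (0 : ℂ) r, DifferentiableOn ℂ (fun t => db (Θ t i) w) V)
    (dγ : DifferentiableOn ℂ γ V) : DifferentiableOn ℂ (fun t => D.sa (Θ t) (γ t)) V ∧
      ∀ i, DifferentiableOn ℂ (fun p : T × ℂ => D.PH (Θ p.1) (γ p.1) i p.2) (V ×ˢ ball 0 r) := by
  have a : DifferentiableOn ℂ (fun t => D.sol (al g0 (Θ t), γ t)) V := D.dsol.comp ((df_mk (rc_adB hg)
    hV (fun t a => us_res ((h.adm t a).sv hg.res).1 ((h.adm t a).sv hg.res).2) h.jal fun i w b =>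
      have c := mem_ball_zero_iff.2 (b.trans_lt h1)
      (df_inv (d0 i w c) fun t e => (h.adm t e).det i w c).mul (d1 i w c)).prodMk dγ) hN
  have b : DifferentiableOn ℂ (fun t => D.sa (Θ t) (γ t)) V :=
    D.Q.differentiable.comp_differentiableOn a.snd
  refine ⟨b, fun i => osg_prod (hV.prod isOpen_ball) (D.cPH hr h hN hW i) (fun p c => ?_)
    fun p c => (hI _ c.1 i).differentiableAt (isOpen_ball.mem_nhds c.2)⟩
  have m := hV.mem_nhds c.1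
  exact (((d0 i _ c.2).differentiableAt m).mul ((df_fm (a.fst.differentiableAt m) i _).const_add
    1)).mul (((D.Fh i _ (ball_subset_ball hr c.2)).comp b hW).differentiableAt m)

end Kd

end Vale.Agent.P275KI
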