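import Vale.Agent.P275KI.Sct
import Vale.Agent.P275KI.Ift

/-!
# P275, block KI: solution operators with additional properties
-/

set_option linter.unusedSectionVars false

open scoped Topology ComplexConjugate ContDiff
open Filter Set Complex Metric
open Vale.Agent.P275GC Vale.Agent.P275GC.At
open Vale.Agent.P275NA (Fm Cy Wk db cT)
open Vale.Agent.P275RR (Rc SV rc_of ex ex_mem db_ex ex_self sv_ex)
open Vale.Agent.P275MO (Sct bar Slv)
open Vale.Agent.P275CT (ex_cutC cd_cut cs_cut cT_cd db_cT db_one db_cdo)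

noncomputable section

namespace Vale.Agent.P275KI

variable {C : Type} [TopologicalSpace C] {A : At C}
variable {V : Type} [NormedAddCommGroup V] [NormedSpace ℝ V] [NormedSpace ℂ V]
  [IsScalarTower ℝ ℂ V] [CompleteSpace V] {G : Cy A (V →L[ℂ] V)}

variable (G) in
/-- a bounded solution operator of `db` modulo a finite dimensional space of smooth forms -/
structure Sv where
  S : Sct A (bar A G) →L[ℂ] Sct A G
  π : Sct A (bar A G) →L[ℂ] Sct A (bar A G)
  fin : FiniteDimensional ℂ (LinearMap.range π.toLinearMap)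
  sm : ∀ f, A.Sm ∞ (Sct.fm A (π f))
  wd : ∀ f, WD A (Sct.fm A (S f)) (Sct.fm A (f - π f))
  ex : ∀ (u : Sct A G) f, WD A (Sct.fm A u) (Sct.fm A f) → π f = 0

theorem Sv.ππ (K : Sv G) (f : Sct A (bar A G)) : K.π (K.π f) = K.π f := by
  have := K.ex _ _ (K.wd f)
  rw [map_sub, sub_eq_zero] at this
  exact this.symm

/-- the underlying operator -/
def Sv.of (hG : A.Cc G) (K : Slv A G) : Sv G :=
  ⟨K.S, K.π, K.finπ, K.smπ, slv_wd hG K, fun _ _ h =>
    (slv_uni hG K fun i z a => h i z (mem_of_le a.le)).1⟩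

theorem slv_p (hG : A.Cc G) (K : Slv A G) {u : Sct A G} (h : A.Hl (Sct.fm A u)) : K.p u = u := by
  have := (slv_uni hG K (u := u) (v := 0) fun i z a => (wd_hl h i z (mem_of_le a.le)).congr
    EventuallyEq.rfl (Eventually.of_forall fun _ => fm_zero)).2
  rw [map_zero, zero_add] at this
  exact this.symm

theorem WD.add {s f s' f' : Fm A V} (h : WD A s f) (h' : WD A s' f') :
    WD A (fun i z => s i z + s' i z) fun i z => f i z + f' i z := fun i z a => (h i z a).add (h' i z a)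

theorem WD.fm_add {u u' : Sct A G} {f f' : Sct A (bar A G)} (h : WD A (Sct.fm A u) (Sct.fm A f))
    (h' : WD A (Sct.fm A u') (Sct.fm A f')) : WD A (Sct.fm A (u + u')) (Sct.fm A (f + f')) :=
  (h.add h').congr (fun _ _ _ => P275KI.fm_add _ _) fun _ _ _ => P275KI.fm_add _ _

theorem WD.fm_sub {u u' : Sct A G} {f f' : Sct A (bar A G)} (h : WD A (Sct.fm A u) (Sct.fm A f))
    (h' : WD A (Sct.fm A u') (Sct.fm A f')) : WD A (Sct.fm A (u - u')) (Sct.fm A (f - f')) :=
  WD.congr (fun i z a => (h i z a).sub (h' i z a)) (fun _ _ _ => P275KI.fm_sub _ _)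
    fun _ _ _ => P275KI.fm_sub _ _

theorem WD.fm_smul {u : Sct A G} {f : Sct A (bar A G)} (c : ℂ)
    (h : WD A (Sct.fm A u) (Sct.fm A f)) : WD A (Sct.fm A (c • u)) (Sct.fm A (c • f)) :=
  WD.congr (fun i z a => (h i z a).csmul c) (fun _ _ _ => P275KI.fm_smul _ _)
    fun _ _ _ => P275KI.fm_smul _ _

theorem sm_smul {f : Fm A V} (c : ℂ) (h : A.Sm ∞ f) : A.Sm ∞ fun i z => c • f i z :=
  fun i => P275CT.cdo_csmul c (h i)

/-- linear combinations -/
def lc {k : ℕ} {X : Type} [NormedAddCommGroup X] [NormedSpace ℂ X] (u : Fin k → X) :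
    (Fin k → ℂ) →L[ℂ] X := LinearMap.toContinuousLinearMap (Fintype.linearCombination ℂ u)

theorem lc_apply {k : ℕ} {X : Type} [NormedAddCommGroup X] [NormedSpace ℂ X] (u : Fin k → X)
    (c : Fin k → ℂ) : lc u c = ∑ a, c a • u a := Fintype.linearCombination_apply ℂ u c

theorem ex_loc [T2Space C] (hG : A.Cc G) (i0 : Fin A.N) {ξ0 : ℂ} {ε : ℝ} (h0 : 0 < ε)
    (h1 : ‖ξ0‖ + ε < 1) (f : Fm A V) (hf : A.Sm ∞ f) : ∃ (u : Sct A G) (v : Sct A (bar A G)),
      WD A (Sct.fm A u) (Sct.fm A v) ∧ A.Sm ∞ (Sct.fm A v) ∧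
        ∀ w ∈ ball ξ0 ε, Sct.fm A v i0 w = f i0 w := by
  obtain ⟨β, b1, b2, -, b4, b5⟩ := ex_cutC ξ0 h0 (show ε < 1 - ‖ξ0‖ by linarith)
  have hR : closedBall ξ0 (1 - ‖ξ0‖) ⊆ ball 0 A.R :=
    (closedBall_subset_closedBall' (by simp)).trans A.unit_sub
  have c1 : ContDiff ℝ ∞ fun w => β w • f i0 w := cd_cut isOpen_ball b1 (b5 ▸ hR) (hf i0)
  have c2 := cT_cd (n := ⊤) c1 (cs_cut b2 _)
  have c3 : ContDiff ℝ ∞ fun w => β w • cT (fun w => β w • f i0 w) w := b1.smul c2
  have z3 : ∀ w, w ∉ closedBall ξ0 (1 - ‖ξ0‖) →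
      (fun w => β w • cT (fun w => β w • f i0 w) w) =ᶠ[𝓝 w] fun _ => 0 := fun w a =>
    P275CT.ev_zero (b5 ▸ a)
  have m1 := ex_mem (j := i0) (k := ⊤) (rc_of hG) (isCompact_closedBall _ _) hR
    (fun w _ a => (z3 w a).self_of_nhds) c3.contDiffOn
  have m2 := ex_mem (j := i0) (k := ⊤) (rc_of hG).bar (isCompact_closedBall _ _) hR
    (u := db fun w => β w • cT (fun w => β w • f i0 w) w)
    (fun w _ a => (P281Z.Hm.wb_congr (z3 w a) 1).trans (P281Z.Hm.wb_const _ _ _))
    (db_cdo (n := ∞) isOpen_ball c3.contDiffOn)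
  have d := db_ex (j := i0) hG (isCompact_closedBall _ _) hR (fun w _ a => (z3 w a).self_of_nhds)
    (c3.of_le (by simp)).contDiffOn
  have e1 := fun i z a => fm_mk_of (i := i) (z := z) (rc_of hG) m1.1.ct m1.2.1 a
  have e2 := fun i z a => fm_mk_of (i := i) (z := z) (rc_bar (rc_of hG)) m2.1.ct m2.2.1 a
  refine ⟨_, _, (wd_sm (m1.1.of_le (by simp))).congr e1 fun i z a => (e2 i z a).trans (d i z a).symm,
    fun i => (m2.1 i).congr (e2 i), fun w a => ?_⟩
  have a' := hR (closedBall_subset_closedBall (by linarith) (ball_subset_closedBall a))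
  rw [e2 i0 w a', ex_self (rc_of hG).bar a', db, P281Z.Hm.wb_smul
    ((b1.differentiable (by simp)) w) ((c2.differentiable (by simp)) w),
    show P281Z.Hm.wb 1 β w = 0 from db_one b4 a, zero_smul, zero_add,
    show P281Z.Hm.wb 1 (cT fun w => β w • f i0 w) w = _ from
      congrFun (db_cT (c1.of_le (by simp)) (cs_cut b2 _)) w, b4 w (ball_subset_closedBall a),
    one_smul, one_smul]

/-- the forms can be chosen to vanish on a small disc -/
theorem Sv.van [T2Space C] (hG : A.Cc G) (K : Sv G) (i0 : Fin A.N) {ξ0 : ℂ} {ε : ℝ} (h0 : 0 < ε)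
    (h1 : ‖ξ0‖ + ε < 1) : ∃ K' : Sv G, ∀ f, ∀ w ∈ ball ξ0 ε, Sct.fm A (K'.π f) i0 w = 0 := by
  have := K.fin
  obtain ⟨k, E, Q, e1, e2⟩ := exists_crd K.π K.ππ
  have sE : ∀ c, A.Sm ∞ (Sct.fm A (E c)) := fun c => by rw [← e2 c, e1]; exact K.sm _
  choose u v h2 h3 h4 using fun a => ex_loc hG i0 h0 h1 _ (sE (Pi.single a 1))
  have eE : ∀ c, E c = ∑ a, c a • E (Pi.single a 1) := fun c => by
    simp only [← map_smul, ← map_sum]
    exact congrArg E (pi_eq_sum_univ' c)
  refine ⟨⟨K.S + lc u ∘L Q, (E - lc v) ∘L Q, Submodule.finiteDimensional_of_le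
    (LinearMap.range_comp_le_range Q.toLinearMap (E - lc v).toLinearMap), fun f i => ?_, fun f => ?_,
    fun a f h => ?_⟩, fun f w hw => ?_⟩
  · refine ((sE (Q f) i).sub (ContDiffOn.sum (s := Finset.univ) fun a _ =>
      sm_smul (Q f a) (h3 a) i)).congr fun z _ => ?_
    simp only [ContinuousLinearMap.comp_apply, _root_.sub_apply, fm_sub, lc_apply, fm_sum, fm_smul]
  · refine ((K.wd f).add fun i z a => WA.sum Finset.univ fun b _ =>
      (h2 b i z a).csmul (Q f b)).congr (fun i z _ => ?_) fun i z _ => ?_ <;>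
    simp only [ContinuousLinearMap.comp_apply, _root_.sub_apply, _root_.add_apply, fm_sub, fm_add,
      lc_apply, fm_sum, fm_smul, e1]
    abel
  · rw [ContinuousLinearMap.comp_apply, ← e2 (Q f), e1, K.ex a f h, map_zero, map_zero]
  · simp only [ContinuousLinearMap.comp_apply, _root_.sub_apply, fm_sub, lc_apply, fm_sum, fm_smul,
      eE (Q f), fun a => h4 a w hw, sub_self]

section split
variable (L : V →L[ℂ] V) (hL : ∀ i j, ∀ z ∈ A.O i j, ∀ x, L (G i j z x) = G i j z (L x))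
include hL

theorem com_bar : ∀ i j, ∀ z ∈ A.O i j, ∀ x, L (bar A G i j z x) = bar A G i j z (L x) :=
  fun i j z h x => by rw [bar_apply, bar_apply, map_smul, hL i j z h]

theorem WD.lin {u : Sct A G} {f : Sct A (bar A G)} (h : WD A (Sct.fm A u) (Sct.fm A f)) :
    WD A (Sct.fm A (lin L hL u)) (Sct.fm A (lin L (com_bar L hL) f)) :=
  WD.congr (fun i z a => (h i z a).clm L) (fun _ _ a => fm_lin L hL u a)
    fun _ _ a => fm_lin L _ f a

/-- compatibility with a projection of the fibres -/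
theorem Sv.split (hG : A.Cc G) (K : Sv G) (hLL : ∀ x, L (L x) = L x) : ∃ K' : Sv G,
    (∀ f, K'.π (lin L (com_bar L hL) f) = lin L (com_bar L hL) (K'.π f)) ∧
    ∀ i z, z ∈ ball (0 : ℂ) A.R → (∀ f, Sct.fm A (K.π f) i z = 0) → ∀ f, Sct.fm A (K'.π f) i z = 0 := by
  have := K.fin
  set t := lin L hL
  set t' := lin L (com_bar L hL)
  have tt : ∀ f, t' (t' f) = t' f := fun f => sct_ext (rc_bar (rc_of hG)) fun i z a => by
    simp only [t', fm_lin L _ _ (mem_of_le a), hLL]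
  have w1 : ∀ {u : Sct A G} {f : Sct A (bar A G)}, WD A (Sct.fm A u) (Sct.fm A f) →
      WD A (Sct.fm A (t u)) (Sct.fm A (t' f)) := fun h => h.lin L hL
  let π' : Sct A (bar A G) →L[ℂ] Sct A (bar A G) :=
    t' ∘L K.π ∘L t' + (1 - t') ∘L K.π ∘L (1 - t')
  have e : ∀ f i, ∀ z ∈ ball (0 : ℂ) A.R, Sct.fm A (π' f) i z =
        L (Sct.fm A (K.π (t' f)) i z) + (Sct.fm A (K.π (f - t' f)) i z -
          L (Sct.fm A (K.π (f - t' f)) i z)) := fun f i z a => by
    simp only [π', ContinuousLinearMap.comp_apply, _root_.sub_apply, _root_.add_apply, fm_sub,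
      fm_add, one_apply_eq_self, t', fm_lin L _ _ a]
  have cL : ∀ f, A.Sm ∞ fun i z => L (Sct.fm A (K.π f) i z) := fun f i =>
    (L.restrictScalars ℝ).contDiff.comp_contDiffOn (K.sm f i)
  refine ⟨⟨t ∘L K.S ∘L t' + (1 - t) ∘L K.S ∘L (1 - t'), π', Submodule.finiteDimensional_of_le
      (S₂ := (LinearMap.range K.π.toLinearMap).map t'.toLinearMap ⊔
        (LinearMap.range K.π.toLinearMap).map (1 - t').toLinearMap) ?_, fun f i => ?_, fun f => ?_,
    fun u f h => ?_⟩, fun f => ?_, fun i z a h f => ?_⟩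
  · rintro _ ⟨f, rfl⟩
    exact Submodule.add_mem_sup ⟨_, ⟨t' f, rfl⟩, rfl⟩ ⟨_, ⟨(1 - t') f, rfl⟩, rfl⟩
  · exact ((cL _ i).add ((K.sm _ i).sub (cL _ i))).congr (e f i)
  · have := (w1 (K.wd (t' f))).fm_add ((K.wd (f - t' f)).fm_sub (w1 (K.wd (f - t' f))))
    refine this.congr (fun _ _ _ => rfl) fun i z _ => congrArg (fun y => Sct.fm A y i z) ?_
    simp only [π', ContinuousLinearMap.comp_apply, _root_.sub_apply, _root_.add_apply,
      one_apply_eq_self, map_sub, tt]
    abel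
  · simp only [π', ContinuousLinearMap.comp_apply, _root_.sub_apply, _root_.add_apply,
      one_apply_eq_self, K.ex _ _ (w1 h), K.ex _ _ (h.fm_sub (w1 h)), map_zero, add_zero]
  · simp only [π', ContinuousLinearMap.comp_apply, _root_.sub_apply, _root_.add_apply,
      one_apply_eq_self, map_sub, map_add, tt, sub_self, map_zero, add_zero]
  · exact (e f i z a).trans (by simp only [h, map_zero, sub_self, add_zero])

end split

end Vale.Agent.P275KI
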