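import Vale.Agent.P275KI.Exi

/-!
# P275, block KI: the Kuranishi family of a bundle
-/

set_option linter.unusedSectionVars false

open scoped Topology ComplexConjugate ContDiff Matrix.Norms.Operator
open Filter Set Complex Metric Matrix
open Vale.Agent.P275GC Vale.Agent.P275GC.At
open Vale.Agent.P275NA (Fm Cy Mn db dz fc)
open Vale.Agent.P275RR (Rc SV rc_of)
open Vale.Agent.P275MO

noncomputable section

namespace Vale.Agent.P275KI

variable {C : Type} [TopologicalSpace C] {A : At C} {n : ℕ} {l : Cy A ℂ} {g0 : Cy A (Mn n)}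

namespace Kd

variable {hg : A.Cc g0} (D : Kd hg) {r : ℝ} {h1 : 1 < r} {h2 : r ≤ A.R} {s : Cv D.k}

theorem esE (s : Cv D.k) : ESec A g0 (fun i j w => conj (A.d i j w)) (Sct.fm A (D.E s)) :=
  (esec_svb hg).2 (fm_sv (rc_adB hg) _)

theorem bun (hb : Bun A l g0) (hr : r ≤ D.r) (hs : s ∈ D.W) :
    Bun (A.res r h1 h2) l (fc A (D.F s) g0) :=
  bun_fc (A := A.res r h1 h2) (Bun.res hb) (ESec.res (D.esE s)) fun i => (D.fr s hs i).mono hr

theorem al_eq (hr : r ≤ D.r) (hs : s ∈ D.W) {g : Cy A (Mn n)} {Θ : Fm A (Mn n)}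
    (h : Adm (A.res r h1 h2) l g0 g Θ) (e : ∀ i, ∀ w ∈ ball (0 : ℂ) r, Θ i w = (D.F s i w)⁻¹) :
    al g0 Θ = D.E s := sct_ext (rc_adB hg) fun i w a => by
  have b := mem_ball_zero_iff.2 (a.trans_lt h1)
  have f := (D.fr s hs i).mono hr
  rw [fm_al hg h b, db, P281Z.Hm.wb_congr (eventually_of_mem (isOpen_ball.mem_nhds b) (e i)),
    show P281Z.Hm.wb 1 _ w = _ from f.db_inv b, e i w b, nonsing_inv_nonsing_inv _ (f.ne b).isUnit,
    mul_nonsing_inv_cancel_left _ _ (f.ne b).isUnit]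

theorem base (hr : r ≤ D.r) (hs : s ∈ D.W) {g : Cy A (Mn n)} {Θ : Fm A (Mn n)}
    (h : Adm (A.res r h1 h2) l g0 g Θ) (e : ∀ i, ∀ w ∈ ball (0 : ℂ) r, Θ i w = (D.F s i w)⁻¹) :
    (al g0 Θ, 0) ∈ D.N ∧ D.sa Θ 0 = s ∧ ∀ i, ∀ w ∈ ball (0 : ℂ) r,
      (D.MM Θ 0 i w).det = 1 ∧ D.PH Θ 0 i w = 1 := by
  have a := D.al_eq hr hs h e
  have b : D.sa Θ 0 = s := by rw [sa, a, (D.WN s hs).2, D.QE]
  refine ⟨a ▸ (D.WN s hs).1, b, fun i w c => ?_⟩
  have f := (D.fr s hs i).mono hr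
  have m : D.MM Θ 0 i w = (D.F s i w)⁻¹ := by
    rw [MM, a, (D.WN s hs).2, fm_zero, add_zero, Matrix.mul_one, e i w c]
  exact ⟨by rw [m, det_nonsing_inv, (f.2 w c).1, Ring.inverse_one],
    by rw [PH, m, b, nonsing_inv_mul _ (f.ne c).isUnit]⟩

theorem adm_inv (hb : Bun A l g0) (hr : r ≤ D.r) (hs : s ∈ D.W) :
    Adm (A.res r h1 h2) l g0 (fc A (D.F s) g0) fun i w => (D.F s i w)⁻¹ :=
  have f := fun i => (D.fr s hs i).mono hr
  ⟨D.bun hb hr hs, fun i _ a => (cd_inv ((f i).at a) ((f i).ne a)).contDiffWithinAt,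
    fun _ j _ a => (mul_nonsing_inv_cancel_right _ _ ((f j).ne (tr_ball a)).isUnit).symm,
    fun i _ a => (isUnit_nonsing_inv_det _ ((f i).ne a).isUnit).ne_zero⟩

theorem cinv (i : Fin A.N) :
    ContinuousOn (fun p : Cv D.k × ℂ => (D.F p.1 i p.2)⁻¹) (D.W ×ˢ ball 0 D.r) :=
  ca_inv (D.Fc i) fun _ a => (D.fr _ a.1 i).ne a.2

theorem fh_inv (hb : Bun A l g0) : FH l g0 D.h1 D.h2 (fun p : Cv D.m × Cv D.k => fc A (D.F p.2) g0)
    (fun p i w => (D.F p.2 i w)⁻¹) (fun p => D.E' p.1) {p | p.2 ∈ D.W} := by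
  have c := fun i => (D.cinv i).comp (s := {p : Cv D.m × Cv D.k | p.2 ∈ D.W} ×ˢ ball 0 D.r)
    (f := fun q => (q.1.2, q.2)) (by fun_prop) fun _ a => mk_mem_prod a.1 a.2
  have e : ContinuousOn (fun p : Cv D.m × Cv D.k => D.E p.2) {p | p.2 ∈ D.W} :=
    (D.E.continuous.comp continuous_snd).continuousOn
  exact ⟨fun p a => D.adm_inv hb le_rfl a, fun p _ => D.hol _, c, fun i => ((c i).mul ((joint_fm
    (rc_adB hg) e i).mono (prod_mono_right (ball_subset_ball D.h2)))).congr fun q a =>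
      (D.fr _ a.1 i).db_inv a.2, (D.E'.continuous.comp continuous_fst).continuousOn⟩

section cmp
variable [T2Space C]

/-- the smooth comparison with the member `s` -/
def th (h1 : 1 < r) (h2 : r ≤ A.R) (s : Cv D.k) (g : Cy A (Mn n)) : Fm A (Mn n) := fun i w =>
  cmb (A.res r h1 h2) (pC (A.res r h1 h2)) g (fc A (D.F s) g0) i w * (D.F s i w)⁻¹

theorem db_th (hb : Bun A l g0) (hr : r ≤ D.r) (hs : s ∈ D.W) {g : Cy A (Mn n)}
    (h : (A.res r h1 h2).Cc g) (i : Fin A.N) {w : ℂ} (a : w ∈ ball (0 : ℂ) r) :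
    ContDiffAt ℝ 1 (D.th h1 h2 s g i) w ∧ db (D.th h1 h2 s g i) w =
      cmb (A.res r h1 h2) (fun k i => db (pC (A.res r h1 h2) k i)) g (fc A (D.F s) g0) i w *
        (D.F s i w)⁻¹ + cmb (A.res r h1 h2) (pC (A.res r h1 h2)) g (fc A (D.F s) g0) i w *
          ((D.F s i w)⁻¹ * Sct.fm A (D.E s) i w) := by
  have f := (D.fr s hs i).mono hr
  have b := wa_cmb (A := A.res r h1 h2) (i := i) h (D.bun hb hr hs).cc a
  have c := cd_inv (f.at a) (f.ne a)
  refine ⟨b.1.mul c, ?_⟩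
  rw [← b.2, ← f.db_inv a]
  exact P281Z.Hm.wb_mul (b.1.differentiableAt one_ne_zero) (c.differentiableAt one_ne_zero) 1

theorem fh_th (hb : Bun A l g0) (hr : r ≤ D.r) (hs : s ∈ D.W) {T : Type} [TopologicalSpace T]
    {g : T → Cy A (Mn n)} {V : Set T} {t0 : T} (hV : V ∈ 𝓝 t0)
    (hB : ∀ t ∈ V, Bun (A.res r h1 h2) l (g t))
    (hc : ∀ i j, ContinuousOn (fun p : T × ℂ => g p.1 i j p.2) (V ×ˢ (A.res r h1 h2).O i j))
    (e : ∀ i j, ∀ w ∈ (A.res r h1 h2).O i j, g t0 i j w = fc A (D.F s) g0 i j w) :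
    ∃ V' : Set T, IsOpen V' ∧ t0 ∈ V' ∧ V' ⊆ V ∧
      FH l g0 h1 h2 g (fun t => D.th h1 h2 s (g t)) (fun _ => 0) V' ∧ D.sa (D.th h1 h2 s (g t0)) 0 = s ∧
      (∀ i, ∀ w ∈ ball (0 : ℂ) r, D.PH (D.th h1 h2 s (g t0)) 0 i w = 1) ∧
      ∀ t ∈ V', (al g0 (D.th h1 h2 s (g t)), 0) ∈ D.N ∧ D.sa (D.th h1 h2 s (g t)) 0 ∈ D.W ∧
        BIso (A.res r h1 h2) (fc A (D.F (D.sa (D.th h1 h2 s (g t)) 0)) g0) (g t)
          (D.PH (D.th h1 h2 s (g t)) 0) := by
  have b1 := D.bun (h1 := h1) (h2 := h2) hb hr hs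
  have f := fun i => (D.fr s hs i).mono hr
  have j0 := joint_cmb (c := pC (A.res r h1 h2)) b1.cc
    (fun k i z a => (cd_pC k a).continuousAt.continuousWithinAt) (fun k i z => ev_pC) hc
  have j1 := joint_cmb (c := fun k i => db (pC (A.res r h1 h2) k i)) b1.cc (fun k i z a =>
    (ca_db ((cd_pC k a).of_le (by simp))).continuousWithinAt) (fun k i z => ev_dpC) hc
  have one := fun i z a => cmb_one (i := i) (z := z) b1.cc e a
  have m := inter_mem hV (ev_unit (O := {X : Mn n | ‖X.det - 1‖ < 1}) h1 hV j0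
    (isOpen_lt (cont_det.sub continuous_const).norm continuous_const) fun i w a => by
      simp only [mem_ofPred_eq, one i w (mem_ball_zero_iff.2 (a.trans_lt h1)), det_one, sub_self,
        norm_zero, zero_lt_one])
  have ci : ∀ i, ContinuousOn (fun p : T × ℂ => (D.F s i p.2)⁻¹) (V ×ˢ ball 0 r) := fun i =>
    (ca_inv (f i).1.continuousOn fun _ => (f i).ne).comp continuousOn_snd fun _ a => a.2
  have ce : ∀ i, ContinuousOn (fun p : T × ℂ => Sct.fm A (D.E s) i p.2) (V ×ˢ ball 0 r) := fun i =>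
    (fm_ct (rc_adB hg) _ i).comp continuousOn_snd fun _ a => ball_subset_ball h2 a.2
  have fh : FH l g0 h1 h2 g (fun t => D.th h1 h2 s (g t)) (fun _ => 0) _ := ⟨fun t
    (a : t ∈ V ∩ _) => ⟨hB t a.1, fun i z c =>
      (D.db_th hb hr hs (hB t a.1).cc i c).1.contDiffWithinAt, fun (i j : Fin A.N) w c => by
        have := law_cmb (hB t a.1).cc b1.cc c
        simp only [th]
        rw [Matrix.mul_assoc, (D.adm_inv hb hr hs).law i j w c, ← Matrix.mul_assoc]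
        erw [this]
        rw [Matrix.mul_assoc],
      fun (i : Fin A.N) w c => by
        simp only [th, Matrix.det_mul]
        exact mul_ne_zero (det_ne_of (A := A.res r h1 h2) b1 (hB t a.1)
          (fun _ _ _ => law_cmb (A := A.res r h1 h2) (hB t a.1).cc b1.cc) a.2 c)
          ((D.adm_inv (h1 := h1) (h2 := h2) hb hr hs).det i w c)⟩,
    fun _ _ i => (differentiableOn_const (0 : Mn n)).congr fun _ _ => fm_zero,
    fun i => ((j0 i).mul (ci i)).mono (prod_mono_left inter_subset_left),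
    fun i => ((((j1 i).mul (ci i)).add ((j0 i).mul ((ci i).mul (ce i)))).congr fun p a =>
      (D.db_th hb hr hs (hB _ a.1).cc i a.2).2).mono (prod_mono_left inter_subset_left),
    continuousOn_const⟩
  obtain ⟨a1, a2, a3⟩ := D.base hr hs (fh.adm t0 (mem_of_mem_nhds m)) fun (i : Fin A.N) w a => by
    simp only [th]
    erw [one i w a, Matrix.one_mul]
  obtain ⟨V', v1, v2, v3⟩ := _root_.eventually_nhds_iff.1 (D.fam hb hr fh m a1 (a2.symm ▸ hs)
    fun i w a => (a3 i w (mem_ball_zero_iff.2 (a.trans_lt h1))).1)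
  exact ⟨V', v2, v3, fun t a => (v1 t a).1.1, fh.mono fun t a => (v1 t a).1, a2,
    fun i w a => (a3 i w a).2, fun t a => (v1 t a).2⟩

end cmp

end Kd

end Vale.Agent.P275KI
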